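import Vale.Agent.P141.H213.WinHyp

/-!
# P141, line W, module S8 (StepB2 on one window), part 7: the numbers

`numW_le`: the number of one window is at most `Cst * M * e0 * (1 + P)`, where `M` is the gain.
`winHyp_of_powers`: `H379.WinHyp` when the numbers of the level `j` are powers of
`t_j = 2 ^ (-(j + jm))`.
-/

namespace Vale.Agent.P141.H213

open Finset Function
open Vale.Agent.P141.H315 (Grid dot)
open Vale.Agent.P141.PL.H318 (CSys)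
open Vale.Agent.P141.H347 (LW cd Dat2 Root2)
open Vale.Agent.P141.H782 (gb used LSys)
open Vale.Agent.P141.H8 (K1 MM ee)
open Vale.Agent.P141.H297 (KS)
open Vale.Agent.P141.H379 (nvF WinHyp)
open Vale.Agent.P141.H501 (numL4 szX)
open Vale.Agent.P141.H444 (TSys TDat TDat.sys GenL)
open Vale.Agent.P141.H922 (CgP)

noncomputable section

/-- the constant of one window -/
def Cst (Cb KSc C2 C1 CR A G1 G2 G3 G4 G5 G6 : ℝ) (nr : ℕ) : ℝ :=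
  616 * (G1 * √C1) + 48 * 316 * (G1 * √(8 * (2 * C2 + 3))) + 64 * (Cb * (KSc ^ 4 * G5)) +
    3 * ((32 * G2 + 2 * G3) * (nr * (A * (K1 2 CR * MM 2) ^ nr * MM 2)) +
      2 * (Cb * (2 * (68 * √A) * (68 * √C1) * (68 ^ 2 * K1 2 CR)) / 128 * G6) *
        (nr * (A * (K1 2 CR * MM 2) ^ nr * MM 2)) +
      Cb * (2 * (68 * √A) * (68 * √C1) * (10 ^ 4 * (A * (K1 2 CR * MM 2) ^ nr))) / 128 * G6 + G4)

theorem szX_eq {C2 Cg e0 A : ℝ} (hA : A = 4 * (2 * C2 + 3) + 2 * (1 + 2 * Cg)) (hA0 : 0 ≤ A) :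
    szX C2 Cg e0 = 68 * √A * √e0 := by
  unfold szX
  rw [← hA, Real.sqrt_mul hA0]
  ring

theorem aux4 {Pm Q1 S P s T r S' e cE G2 G3 G4 G6 N : ℝ} (hT : 0 ≤ T) (hS : 0 ≤ S) (hS' : 0 ≤ S')
    (p1 : Pm * r ≤ G2 * N) (p2 : Q1 * r ≤ G3 * N) (p3 : P * s * r ≤ G6 * N)
    (p4 : P * s * e ≤ G6 * N) (p5 : cE ≤ G4 * N) :
    (32 * Pm + 2 * (Q1 + S * (P * s))) * (T * r) + S' * (P * s * e) + cE ≤
      ((32 * G2 + 2 * G3) * T + 2 * (S * G6) * T + S' * G6 + G4) * N := by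
  have q1 := mul_le_mul_of_nonneg_left p1 (by positivity : 0 ≤ 32 * T)
  have q2 := mul_le_mul_of_nonneg_left p2 (by positivity : 0 ≤ 2 * T)
  have q3 := mul_le_mul_of_nonneg_left p3 (by positivity : 0 ≤ 2 * S * T)
  have q4 := mul_le_mul_of_nonneg_left p4 hS'
  calc (32 * Pm + 2 * (Q1 + S * (P * s))) * (T * r) + S' * (P * s * e) + cE
      = 32 * T * (Pm * r) + 2 * T * (Q1 * r) + 2 * S * T * (P * s * r) + S' * (P * s * e) + cE := by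
        ring
    _ ≤ 32 * T * (G2 * N) + 2 * T * (G3 * N) + 2 * S * T * (G6 * N) + S' * (G6 * N) + G4 * N := by
        linarith
    _ = _ := by ring

/-- **The number of one window.** -/
theorem numW_le {Cb P θ Kb C2 Cg C1 CR e0 E τ c1 Pm Q1 cE A M G1 G2 G3 G4 G5 G6 : ℝ} {nr : ℕ}
    (hCb : 0 ≤ Cb) (hP : 0 ≤ P) (hC2 : 0 ≤ C2) (hCg : 0 ≤ Cg) (hCR : 0 ≤ CR) (he0 : 0 < e0)
    (he1 : e0 ≤ 1) (hτ : 0 < τ) (hτ1 : τ ≤ 1) (hM : 0 ≤ M)
    (hA : A = 4 * (2 * C2 + 3) + 2 * (1 + 2 * Cg)) (hE : E = A * e0)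
    (h1 : c1 ≤ G1 * (M * e0)) (hG1 : 0 ≤ G1) (h2 : Pm ≤ G2 * (τ * M)) (hG2 : 0 ≤ G2)
    (h3 : Q1 ≤ G3 * (τ * M)) (hG3 : 0 ≤ G3) (h4 : cE ≤ G4 * (M * e0 * (1 + P))) (_hG4 : 0 ≤ G4)
    (h5 : (Kb ^ θ) ^ 4 * √e0 ≤ G5 * M) (hG5 : 0 ≤ G5) (h6 : √e0 ≤ G6 * (τ * M)) (hG6 : 0 ≤ G6) :
    numW Cb P θ Kb C2 Cg C1 CR e0 E τ c1 Pm Q1 cE nr ≤
      Cst Cb (KS C2 Cg 8 4 θ) C2 C1 CR A G1 G2 G3 G4 G5 G6 nr * (M * e0 * (1 + P)) := by
  have hA0 : 0 ≤ A := by rw [hA]; positivity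
  have hk1 : 0 ≤ K1 2 CR := by unfold K1; positivity
  have hk2 : 0 ≤ MM 2 := by unfold MM; positivity
  have hkk : 0 ≤ (K1 2 CR * MM 2) ^ nr := pow_nonneg (mul_nonneg hk1 hk2) _
  have hs0 := Real.sqrt_nonneg e0
  have hs1 : √e0 ≤ 1 := Real.sqrt_le_one.2 he1
  have hss : √e0 * √e0 = e0 := Real.mul_self_sqrt he0.le
  have hP1 : 0 ≤ 1 + P := by linarith
  have hMe : 0 ≤ M * e0 := mul_nonneg hM he0.le
  have hMeP : M * e0 ≤ M * e0 * (1 + P) := by nlinarith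
  have hPM : P * (M * e0) ≤ M * e0 * (1 + P) := by nlinarith
  have hMP : 0 ≤ M * e0 * (1 + P) := mul_nonneg hMe hP1
  set N := M * e0 * (1 + P) with hN
  -- the first two terms
  have t1 : 616 * (c1 * √C1) ≤ 616 * (G1 * √C1) * N := by
    have := Real.sqrt_nonneg C1
    have h7 : c1 * √C1 ≤ G1 * (M * e0) * √C1 := mul_le_mul_of_nonneg_right h1 this
    have h8 : G1 * √C1 * (M * e0) ≤ G1 * √C1 * N :=
      mul_le_mul_of_nonneg_left hMeP (mul_nonneg hG1 this)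
    linarith
  have t2 : 48 * (c1 * √(8 * (2 * C2 + 3)) * (316 * e0) * √e0) ≤
      48 * 316 * (G1 * √(8 * (2 * C2 + 3))) * N := by
    have h0 := Real.sqrt_nonneg (8 * (2 * C2 + 3))
    have h7 : e0 * √e0 ≤ 1 := by nlinarith
    have h8 : 0 ≤ e0 * √e0 := mul_nonneg he0.le hs0
    have h9 : c1 * (e0 * √e0) ≤ G1 * N := by
      calc c1 * (e0 * √e0) ≤ G1 * (M * e0) * (e0 * √e0) := mul_le_mul_of_nonneg_right h1 h8
        _ ≤ G1 * (M * e0) * 1 := mul_le_mul_of_nonneg_left h7 (mul_nonneg hG1 hMe)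
        _ ≤ G1 * N := by rw [mul_one]; exact mul_le_mul_of_nonneg_left hMeP hG1
    have h10 : 48 * 316 * √(8 * (2 * C2 + 3)) * (c1 * (e0 * √e0)) ≤
        48 * 316 * √(8 * (2 * C2 + 3)) * (G1 * N) :=
      mul_le_mul_of_nonneg_left h9 (by positivity)
    linarith
  have t3 : 4 * (Cb * P * (16 * KS C2 Cg 8 4 θ ^ 4 * (Kb ^ θ) ^ 4) * √e0 ^ 3) ≤
      64 * (Cb * (KS C2 Cg 8 4 θ ^ 4 * G5)) * N := by
    have h7 : P * ((Kb ^ θ) ^ 4 * √e0 * e0) ≤ G5 * N := by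
      calc P * ((Kb ^ θ) ^ 4 * √e0 * e0) ≤ P * (G5 * M * e0) :=
            mul_le_mul_of_nonneg_left (mul_le_mul_of_nonneg_right h5 he0.le) hP
        _ = G5 * (P * (M * e0)) := by ring
        _ ≤ G5 * N := mul_le_mul_of_nonneg_left hPM hG5
    have h8 : √e0 ^ 3 = √e0 * e0 := by rw [pow_succ, pow_two, hss]; ring
    have h9 : 0 ≤ 64 * Cb * KS C2 Cg 8 4 θ ^ 4 :=
      mul_nonneg (mul_nonneg (by norm_num) hCb) (by positivity)
    have h10 := mul_le_mul_of_nonneg_left h7 h9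
    rw [h8]
    linarith
  -- the recursion
  set T : ℝ := nr * (A * (K1 2 CR * MM 2) ^ nr * MM 2) with hT
  have hT0 : 0 ≤ T := by positivity
  have hEt : (nr : ℝ) * (E * (K1 2 CR * MM 2) ^ nr * (MM 2 / τ)) = T * (e0 / τ) := by
    rw [hE, hT]
    field_simp
  have hsz := szX_eq (e0 := e0) hA hA0
  set S : ℝ := Cb * (2 * (68 * √A) * (68 * √C1) * (68 ^ 2 * K1 2 CR)) / 128 with hS
  have hS0 : 0 ≤ S := by positivity
  set S' : ℝ := Cb * (2 * (68 * √A) * (68 * √C1) * (10 ^ 4 * (A * (K1 2 CR * MM 2) ^ nr))) / 128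
    with hS'
  have hS'0 : 0 ≤ S' := by positivity
  have e1 : Cb * P * (2 * szX C2 Cg e0 * (68 * √C1) * (68 ^ 2 * K1 2 CR)) / 128 = S * (P * √e0) := by
    rw [hsz, hS]; ring
  have e2 : Cb * P * (2 * szX C2 Cg e0 * (68 * √C1) * (10 ^ 4 * (E * (K1 2 CR * MM 2) ^ nr))) / 128 =
      S' * (P * √e0 * e0) := by
    rw [hsz, hS', hE]; ring
  have hte : τ * M * (e0 / τ) = M * e0 := by field_simp
  have het : 0 ≤ e0 / τ := div_nonneg he0.le hτ.le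
  have p1 : Pm * (e0 / τ) ≤ G2 * N := by
    have h7 := mul_le_mul_of_nonneg_right h2 het
    have h8 : G2 * (τ * M) * (e0 / τ) = G2 * (M * e0) := by rw [mul_assoc, hte]
    have h9 := mul_le_mul_of_nonneg_left hMeP hG2
    linarith
  have p2 : Q1 * (e0 / τ) ≤ G3 * N := by
    have h7 := mul_le_mul_of_nonneg_right h3 het
    have h8 : G3 * (τ * M) * (e0 / τ) = G3 * (M * e0) := by rw [mul_assoc, hte]
    have h9 := mul_le_mul_of_nonneg_left hMeP hG3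
    linarith
  have p3 : P * √e0 * (e0 / τ) ≤ G6 * N := by
    have h7 := mul_le_mul_of_nonneg_right h6 het
    have h8 : G6 * (τ * M) * (e0 / τ) = G6 * (M * e0) := by rw [mul_assoc, hte]
    have h9 := mul_le_mul_of_nonneg_left hPM hG6
    have h10 := mul_le_mul_of_nonneg_left h7 hP
    rw [h8] at h10
    linarith
  have p4 : P * √e0 * e0 ≤ G6 * N := by
    refine le_trans ?_ p3
    exact mul_le_mul_of_nonneg_left (le_div_self he0.le hτ hτ1) (mul_nonneg hP hs0)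
  have t4 : numL4 C2 Cg C1 CR e0 E τ (Cb * P) Pm Q1 cE nr ≤
      ((32 * G2 + 2 * G3) * T + 2 * (S * G6) * T + S' * G6 + G4) * N := by
    unfold numL4
    rw [e1, e2, hEt]
    exact aux4 hT0 hS0 hS'0 p1 p2 p3 p4 h4
  unfold numW Cst
  rw [← hS, ← hS', ← hT]
  linarith

/-- the level parameter -/
def tl (jm j : ℕ) : ℝ := (1 / 2 : ℝ) ^ (j + jm)

theorem tl_pos (jm j : ℕ) : 0 < tl jm j := by unfold tl; positivity

theorem tl_le_one (jm j : ℕ) : tl jm j ≤ 1 := pow_le_one₀ (by norm_num) (by norm_num)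

theorem tl_succ (jm j : ℕ) : tl jm (j + 1) = tl jm j / 2 := by
  unfold tl
  rw [show j + 1 + jm = j + jm + 1 by ring, pow_succ]
  ring

theorem tl_rpow (jm j : ℕ) (x : ℝ) : tl jm j ^ x = ((1 / 2 : ℝ) ^ x) ^ jm * ((1 / 2 : ℝ) ^ x) ^ j := by
  unfold tl
  rw [← Real.rpow_natCast, ← Real.rpow_natCast, ← Real.rpow_natCast,
    ← Real.rpow_mul (by norm_num), ← Real.rpow_mul (by norm_num), ← Real.rpow_mul (by norm_num),
    ← Real.rpow_add (by norm_num)]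
  congr 1
  push_cast
  ring

/-- **`WinHyp` when the numbers are powers of the level.** -/
theorem winHyp_of_powers {Cg C1 CR A kap c g p q gE B θ c' G1 G2 G3 G4 GK : ℝ} {jm nr : ℕ}
    {D cg : ℕ → ℝ} (hCg : CgP ≤ Cg) (hCR : 0 ≤ CR) (hcg : ∀ j, 0 ≤ cg j)
    (hA : A = 4 * (2 * (32 * (1 + 2 * Cg)) + 3) + 2 * (1 + 2 * Cg))
    (hC1 : 16 * (16 + 4 * (2 * (32 * (1 + 2 * Cg)) + 3) + 2 * (1 + 2 * Cg)) ≤ C1)
    (hkap : 0 < kap) (hc : 0 ≤ c) (hB : 0 ≤ B) (hθ0 : 0 < θ) (hθ1 : θ ≤ 1) (hc' : 0 < c')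
    (hg : kap + c' ≤ g) (hp : c + c' ≤ p) (hq : c + c' ≤ q) (hgE : c' ≤ gE)
    (hk1 : c + c' ≤ kap / 2) (hk2 : 4 * (B * θ) + c' ≤ kap / 2)
    (hG1 : 0 ≤ G1) (hG2 : 0 ≤ G2) (hG3 : 0 ≤ G3) (hG4 : 0 ≤ G4) (hGK : 0 < GK)
    (h : ∀ (n : ℕ) (P : ℝ), 0 ≤ P → Root2 n P → ∃ (κ : Type) (t : TSys n κ),
      (∀ ε : ℝ, 0 < ε → ∃ J, ∀ j, J ≤ j → t.δ j ≤ ε) ∧ (∀ j, (t.δ j)⁻¹ ≤ D j) ∧
      (∀ j, 1 ≤ t.K j ∧ t.K j ≤ GK * (tl jm j) ^ (-B)) ∧ (∀ j b i, (t.P j b i).C ≤ Cg) ∧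
      (∀ j, GenL t j (cg j)) ∧
      ∀ f o K V 𝒩 (hd : Dat2 n f o K V 𝒩), ∀ j, 1 ≤ j → ∀ b,
        ∃ (κ' ι' : Type) (UA : Fin 4 → CSys (gb n b) κ') (R : ℕ → Fin 4 → CSys (gb n b) ι')
          (wR : ∀ i m, LW (R i m)), StepIn t.sys hd j b UA R wR Cg C1 CR ((tl jm j) ^ kap)
            (A * (tl jm j) ^ kap) ((tl jm j) ^ c) (G1 * (tl jm j) ^ g) (G2 * (tl jm j) ^ p)
            (G3 * (tl jm j) ^ q) (G4 * ((tl jm j) ^ gE * (tl jm j) ^ kap * (1 + P))) nr) :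
    WinHyp := by
  obtain ⟨Cb, hCb, hwin⟩ := win_final
  have hCg0 : (0 : ℝ) ≤ Cg := le_trans (by unfold CgP; norm_num) hCg
  have hA0 : 0 < A := by rw [hA]; positivity
  have hA1 : 1 ≤ A := by rw [hA]; nlinarith
  have ht0 := fun j => tl_pos jm j
  have ht1 := fun j => tl_le_one jm j
  have hpw : ∀ j {x y : ℝ}, x ≤ y → (tl jm j) ^ y ≤ (tl jm j) ^ x := fun j x y hxy =>
    Real.rpow_le_rpow_of_exponent_ge (ht0 j) (ht1 j) hxy
  have hρ0 : (0 : ℝ) < (1 / 2 : ℝ) ^ c' := Real.rpow_pos_of_pos (by norm_num) _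
  have hρ1 : (1 / 2 : ℝ) ^ c' < 1 := Real.rpow_lt_one (by norm_num) (by norm_num) hc'
  have hKf : ∀ j, GK * (tl jm j) ^ (-B) ≤ GK * (tl jm (j + 1)) ^ (-B) := by
    intro j
    refine mul_le_mul_of_nonneg_left ?_ hGK.le
    refine Real.rpow_le_rpow_of_nonpos (ht0 _) ?_ (by linarith)
    rw [tl_succ]
    linarith [ht0 j]
  set G5 : ℝ := ((2 * GK * 2 ^ B) ^ θ) ^ 4 with hG5
  have hG50 : 0 ≤ G5 := by positivity
  have hKS : 0 ≤ KS (32 * (1 + 2 * Cg)) Cg 8 4 θ := H297.KS_nonneg hθ0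
  set Ct : ℝ := Cst Cb (KS (32 * (1 + 2 * Cg)) Cg 8 4 θ) (32 * (1 + 2 * Cg)) C1 CR A G1 G2 G3 G4 G5 1
    nr with hCt
  have hCt0 : 0 ≤ Ct := by
    have hk1 : 0 ≤ K1 2 CR := by unfold K1; positivity
    have hk2 : 0 ≤ MM 2 := by unfold MM; positivity
    rw [hCt]
    unfold Cst
    positivity
  refine winHyp_of_stepIn hwin (ρ := (1 / 2 : ℝ) ^ c') (C := Ct * ((1 / 2 : ℝ) ^ c') ^ jm)
    (C1 := C1) (CR := CR) (θ := θ) (D := D) (Kf := fun j => GK * (tl jm j) ^ (-B)) (cg := cg)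
    (e0 := fun j => (tl jm j) ^ kap) (E := fun j => A * (tl jm j) ^ kap)
    (τ := fun j => (tl jm j) ^ c) (c1 := fun j => G1 * (tl jm j) ^ g)
    (Pm := fun j => G2 * (tl jm j) ^ p) (Q1 := fun j => G3 * (tl jm j) ^ q)
    (cE := fun j P => G4 * ((tl jm j) ^ gE * (tl jm j) ^ kap * (1 + P))) (nr := fun _ => nr)
    hρ0 hρ1 (by positivity) hCg hcg hCR hθ0 hθ1 hKf
    (fun j => ⟨Real.rpow_pos_of_pos (ht0 j) _, Real.rpow_le_one (ht0 j).le (ht1 j) hkap.le⟩)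
    (fun j => mul_pos hA0 (Real.rpow_pos_of_pos (ht0 j) _))
    (fun j => ⟨Real.rpow_pos_of_pos (ht0 j) _, Real.rpow_le_one (ht0 j).le (ht1 j) hc⟩)
    (fun j => mul_nonneg hG1 (Real.rpow_nonneg (ht0 j).le _))
    (fun j => mul_nonneg hG2 (Real.rpow_nonneg (ht0 j).le _))
    (fun j => mul_nonneg hG3 (Real.rpow_nonneg (ht0 j).le _)) hC1
    (fun j => by rw [← hA]) (fun j hj P hP => ?_) h
  set t := tl jm j with ht
  have hM0 : 0 < t ^ c' := Real.rpow_pos_of_pos (ht0 j) _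
  have he0 : 0 < t ^ kap := Real.rpow_pos_of_pos (ht0 j) _
  have hsq : √(t ^ kap) = t ^ (kap / 2) := by
    rw [Real.sqrt_eq_rpow, ← Real.rpow_mul (ht0 j).le]
    congr 1
    ring
  have key := numW_le (Cb := Cb) (P := P) (θ := θ) (Kb := 2 * (GK * (tl jm (j + 1)) ^ (-B)))
    (C2 := 32 * (1 + 2 * Cg)) (Cg := Cg) (C1 := C1) (CR := CR) (e0 := t ^ kap)
    (E := A * t ^ kap) (τ := t ^ c) (c1 := G1 * t ^ g) (Pm := G2 * t ^ p) (Q1 := G3 * t ^ q)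
    (cE := G4 * (t ^ gE * t ^ kap * (1 + P))) (A := A) (M := t ^ c') (G1 := G1) (G2 := G2)
    (G3 := G3) (G4 := G4) (G5 := G5) (G6 := 1) (nr := nr) hCb hP (by positivity) hCg0 hCR he0
    (Real.rpow_le_one (ht0 j).le (ht1 j) hkap.le) (Real.rpow_pos_of_pos (ht0 j) _)
    (Real.rpow_le_one (ht0 j).le (ht1 j) hc) hM0.le hA rfl ?_ hG1 ?_ hG2 ?_ hG3 ?_ hG4 ?_ hG50 ?_
    zero_le_one
  · refine key.trans (le_of_eq ?_)
    rw [← hCt, ht, tl_rpow jm j c']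
    ring
  · rw [← Real.rpow_add (ht0 j)]
    exact mul_le_mul_of_nonneg_left (hpw j (by linarith)) hG1
  · rw [← Real.rpow_add (ht0 j)]
    exact mul_le_mul_of_nonneg_left (hpw j hp) hG2
  · rw [← Real.rpow_add (ht0 j)]
    exact mul_le_mul_of_nonneg_left (hpw j hq) hG3
  · have h1 : t ^ gE ≤ t ^ c' := hpw j hgE
    refine mul_le_mul_of_nonneg_left ?_ hG4
    exact mul_le_mul_of_nonneg_right (mul_le_mul_of_nonneg_right h1 he0.le) (by linarith)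
  · have e1 : 2 * (GK * (tl jm (j + 1)) ^ (-B)) = 2 * GK * 2 ^ B * t ^ (-B) := by
      rw [tl_succ, Real.div_rpow (ht0 j).le (by norm_num), Real.rpow_neg (by norm_num : (0:ℝ) ≤ 2)]
      field_simp
      rw [← ht]
    have h2B : (0 : ℝ) < 2 ^ B := Real.rpow_pos_of_pos (by norm_num) _
    rw [e1, Real.mul_rpow (by positivity) (Real.rpow_nonneg (ht0 j).le _), mul_pow, ← hG5, hsq,
      ← Real.rpow_mul (ht0 j).le, ← Real.rpow_natCast, ← Real.rpow_mul (ht0 j).le, mul_assoc,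
      ← Real.rpow_add (ht0 j)]
    refine mul_le_mul_of_nonneg_left (hpw j ?_) hG50
    push_cast
    linarith
  · rw [one_mul, hsq, ← Real.rpow_add (ht0 j)]
    exact hpw j hk1

end

end Vale.Agent.P141.H213
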