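import Mathlib

/-!
# P141, line W, module REC (R5): the order of the constants of the one-cell recursion

Pure real numbers, no analysis.

* `iter_rounds`: the induction `R(q e) ⇒ R(e)` from `e0` down to `eI`, any monotone predicate;
* `exists_rounds`: the number of rounds for `q = C t ^ c`, `e0 ≤ 1`, `eI = t ^ m` depends on `c`,
  `m` only, for `t ≤ t0(C, c)`;
* `rec_rounds`: both together;
* `log_absorb`: powers of `1 + log (1 / t)` are absorbed by half of a power of `t`;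
* `sum_gains`: finitely many gains in one.
-/

namespace Vale.Agent.P141.H213

open Finset

noncomputable section

/-- **The rounds, abstract form.**  `P e A`: the claim `R(e)` holds with the constant `A`. -/
theorem iter_rounds {P : ℝ → ℝ → Prop} {K p AI q eI e0 : ℝ}
    (hmono : ∀ e A A', A ≤ A' → P e A → P e A') (hK : 1 ≤ K) (hp : 0 ≤ p) (hA : 0 ≤ AI)
    (hq0 : 0 < q) (hq1 : q ≤ 1)
    (hbase : ∀ e, 0 < e → e ≤ eI → P e AI)
    (hstep : ∀ e A, eI < e → e ≤ e0 → 0 ≤ A → P (q * e) A → P e (K * A + p)) :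
    ∀ (N : ℕ) (e : ℝ), 0 < e → e ≤ e0 → q ^ N * e ≤ eI → P e (K ^ N * (AI + N * p)) := by
  intro N
  induction N with
  | zero =>
    intro e he _ h
    rw [pow_zero, one_mul] at h
    refine hmono e AI _ (le_of_eq ?_) (hbase e he h)
    simp
  | succ N ih =>
    intro e he he0 h
    have hKN : 1 ≤ K ^ N := one_le_pow₀ hK
    have hKN0 : 0 ≤ K ^ N := by linarith
    have hN : (0 : ℝ) ≤ N := Nat.cast_nonneg N
    have hcast : ((N + 1 : ℕ) : ℝ) = N + 1 := by push_cast; ring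
    by_cases hI : e ≤ eI
    · refine hmono e AI _ ?_ (hbase e he hI)
      have h1 : 1 ≤ K ^ (N + 1) := one_le_pow₀ hK
      have h2 : 0 ≤ ((N + 1 : ℕ) : ℝ) * p := mul_nonneg (Nat.cast_nonneg _) hp
      nlinarith
    · push Not at hI
      have hqe : 0 < q * e := mul_pos hq0 he
      have h1 : q ^ N * (q * e) ≤ eI := by
        rw [← mul_assoc, ← pow_succ]; exact h
      have hle : q * e ≤ e0 := (mul_le_of_le_one_left he.le hq1).trans he0
      have h2 := ih (q * e) hqe hle h1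
      have hA' : 0 ≤ K ^ N * (AI + N * p) :=
        mul_nonneg hKN0 (add_nonneg hA (mul_nonneg hN hp))
      refine hmono e _ _ ?_ (hstep e _ hI he0 hA' h2)
      have h3 : p ≤ K ^ (N + 1) * p := by
        have := one_le_pow₀ hK (n := N + 1)
        nlinarith
      rw [hcast]
      calc K * (K ^ N * (AI + N * p)) + p = K ^ (N + 1) * (AI + N * p) + p := by
            rw [pow_succ]; ring
        _ ≤ K ^ (N + 1) * (AI + N * p) + K ^ (N + 1) * p := by linarith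
        _ = K ^ (N + 1) * (AI + (N + 1) * p) := by ring

/-- a power of a small number beats a constant -/
theorem exists_small {C a : ℝ} (hC : 0 < C) (ha : 0 < a) :
    ∃ t0 : ℝ, 0 < t0 ∧ t0 ≤ 1 ∧ ∀ t : ℝ, 0 < t → t ≤ t0 → C * t ^ a ≤ 1 := by
  refine ⟨min 1 (C⁻¹ ^ a⁻¹), lt_min one_pos (Real.rpow_pos_of_pos (inv_pos.2 hC) _),
    min_le_left _ _, fun t ht htt => ?_⟩
  have h1 : t ≤ C⁻¹ ^ a⁻¹ := htt.trans (min_le_right _ _)
  have h2 : t ^ a ≤ (C⁻¹ ^ a⁻¹) ^ a := Real.rpow_le_rpow ht.le h1 ha.le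
  rw [← Real.rpow_mul (inv_pos.2 hC).le, inv_mul_cancel₀ ha.ne', Real.rpow_one] at h2
  calc C * t ^ a ≤ C * C⁻¹ := mul_le_mul_of_nonneg_left h2 hC.le
    _ = 1 := mul_inv_cancel₀ hC.ne'

/-- `C t ^ c ≤ t ^ (c / 2)` for small `t` -/
theorem exists_half {C c : ℝ} (hC : 0 < C) (hc : 0 < c) :
    ∃ t0 : ℝ, 0 < t0 ∧ t0 ≤ 1 ∧ ∀ t : ℝ, 0 < t → t ≤ t0 → C * t ^ c ≤ t ^ (c / 2) := by
  obtain ⟨t0, h0, h1, h2⟩ := exists_small hC (half_pos hc)
  refine ⟨t0, h0, h1, fun t ht htt => ?_⟩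
  have h3 : t ^ c = t ^ (c / 2) * t ^ (c / 2) := by
    rw [← Real.rpow_add ht]; congr 1; ring
  have h4 : 0 ≤ t ^ (c / 2) := Real.rpow_nonneg ht.le _
  calc C * t ^ c = C * t ^ (c / 2) * t ^ (c / 2) := by rw [h3]; ring
    _ ≤ 1 * t ^ (c / 2) := mul_le_mul_of_nonneg_right (h2 t ht htt) h4
    _ = _ := one_mul _

/-- the number of rounds for the exponents `c`, `m` -/
def nr (c m : ℝ) : ℕ := ⌈2 * m / c⌉₊

/-- **The number of rounds is absolute.** -/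
theorem exists_rounds {C c m : ℝ} (hC : 0 < C) (hc : 0 < c) :
    ∃ t0 : ℝ, 0 < t0 ∧ t0 ≤ 1 ∧ ∀ t : ℝ, 0 < t → t ≤ t0 →
      C * t ^ c ≤ t ^ (c / 2) ∧ C * t ^ c ≤ 1 ∧
      ∀ e : ℝ, 0 < e → e ≤ 1 → (C * t ^ c) ^ nr c m * e ≤ t ^ m := by
  obtain ⟨t0, h0, h1, h2⟩ := exists_half hC hc
  refine ⟨t0, h0, h1, fun t ht htt => ?_⟩
  have ht1 : t ≤ 1 := htt.trans h1
  have h3 := h2 t ht htt
  have h4 : t ^ (c / 2) ≤ 1 := Real.rpow_le_one ht.le ht1 (half_pos hc).le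
  have h5 : 0 ≤ C * t ^ c := mul_nonneg hC.le (Real.rpow_nonneg ht.le _)
  refine ⟨h3, h3.trans h4, fun e he he1 => ?_⟩
  have h6 : (C * t ^ c) ^ nr c m ≤ (t ^ (c / 2)) ^ nr c m := pow_le_pow_left₀ h5 h3 _
  have h7 : (t ^ (c / 2)) ^ nr c m = t ^ (c / 2 * nr c m) := by
    rw [← Real.rpow_natCast, ← Real.rpow_mul ht.le]
  have h8 : m ≤ c / 2 * nr c m := by
    have h9 : 2 * m / c ≤ nr c m := Nat.le_ceil _
    rw [div_le_iff₀ hc] at h9
    linarith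
  have h10 : t ^ (c / 2 * nr c m) ≤ t ^ m := Real.rpow_le_rpow_of_exponent_ge ht ht1 h8
  calc (C * t ^ c) ^ nr c m * e ≤ (C * t ^ c) ^ nr c m * 1 :=
        mul_le_mul_of_nonneg_left he1 (pow_nonneg h5 _)
    _ = (C * t ^ c) ^ nr c m := mul_one _
    _ ≤ t ^ m := h6.trans (h7.le.trans h10)

/-- the constant of the recursion -/
def K2 (K c m : ℝ) : ℝ := K ^ nr c m * (nr c m + 1)

theorem K2_nonneg {K : ℝ} (hK : 1 ≤ K) (c m : ℝ) : 0 ≤ K2 K c m := by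
  unfold K2
  have : 0 ≤ K ^ nr c m := pow_nonneg (by linarith) _
  positivity

theorem one_le_K2 {K : ℝ} (hK : 1 ≤ K) (c m : ℝ) : 1 ≤ K2 K c m := by
  unfold K2
  have h1 : 1 ≤ K ^ nr c m := one_le_pow₀ hK
  have h2 : (0 : ℝ) ≤ nr c m := Nat.cast_nonneg _
  nlinarith

/-- **The recursion, any ratio.**  `P e A` is the claim `R(e)` with the constant `A`; one round
goes from `q e` to `e`, `q ≤ t ^ (c / 2)`, and costs `A ↦ K A + p`; the bottom is `t ^ m`.  `K`, `q`,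
`p` may depend on `t` (logarithms). -/
theorem rec_rounds_q {c m t : ℝ} (hc : 0 < c) (ht : 0 < t) (ht1 : t ≤ 1)
    {P : ℝ → ℝ → Prop} {K p AI e0 q : ℝ} (hq0 : 0 < q) (hq : q ≤ t ^ (c / 2))
    (hmono : ∀ e A A', A ≤ A' → P e A → P e A') (hK : 1 ≤ K) (hp : 0 ≤ p) (hA : 0 ≤ AI)
    (he01 : e0 ≤ 1) (hbase : ∀ e, 0 < e → e ≤ t ^ m → P e AI)
    (hstep : ∀ e A, t ^ m < e → e ≤ e0 → 0 ≤ A → P (q * e) A → P e (K * A + p))
    {e : ℝ} (he : 0 < e) (hee : e ≤ e0) : P e (K2 K c m * (AI + p)) := by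
  have h4 : t ^ (c / 2) ≤ 1 := Real.rpow_le_one ht.le ht1 (half_pos hc).le
  have h5 : q ^ nr c m * e ≤ t ^ m := by
    have h6 : q ^ nr c m ≤ (t ^ (c / 2)) ^ nr c m := pow_le_pow_left₀ hq0.le hq _
    have h7 : (t ^ (c / 2)) ^ nr c m = t ^ (c / 2 * nr c m) := by
      rw [← Real.rpow_natCast, ← Real.rpow_mul ht.le]
    have h8 : m ≤ c / 2 * nr c m := by
      have h9 : 2 * m / c ≤ nr c m := Nat.le_ceil _
      rw [div_le_iff₀ hc] at h9
      linarith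
    have h10 : t ^ (c / 2 * nr c m) ≤ t ^ m := Real.rpow_le_rpow_of_exponent_ge ht ht1 h8
    calc q ^ nr c m * e ≤ q ^ nr c m * 1 :=
          mul_le_mul_of_nonneg_left (hee.trans he01) (pow_nonneg hq0.le _)
      _ = q ^ nr c m := mul_one _
      _ ≤ t ^ m := h6.trans (h7.le.trans h10)
  have h6 := iter_rounds hmono hK hp hA hq0 (hq.trans h4) hbase hstep (nr c m) e he hee h5
  refine hmono e _ _ ?_ h6
  have h7 : 0 ≤ K ^ nr c m := pow_nonneg (by linarith) _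
  have h8 : (0 : ℝ) ≤ nr c m := Nat.cast_nonneg _
  unfold K2
  rw [mul_assoc]
  refine mul_le_mul_of_nonneg_left ?_ h7
  nlinarith

/-- **The recursion.**  The ratio `C t ^ c`. -/
theorem rec_rounds {C c m : ℝ} (hC : 0 < C) (hc : 0 < c) :
    ∃ t0 : ℝ, 0 < t0 ∧ t0 ≤ 1 ∧ ∀ t : ℝ, 0 < t → t ≤ t0 → C * t ^ c ≤ 1 ∧
      ∀ (P : ℝ → ℝ → Prop) (K p AI e0 : ℝ),
        (∀ e A A', A ≤ A' → P e A → P e A') → 1 ≤ K → 0 ≤ p → 0 ≤ AI → e0 ≤ 1 →
        (∀ e, 0 < e → e ≤ t ^ m → P e AI) →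
        (∀ e A, t ^ m < e → e ≤ e0 → 0 ≤ A → P (C * t ^ c * e) A → P e (K * A + p)) →
        ∀ e, 0 < e → e ≤ e0 → P e (K2 K c m * (AI + p)) := by
  obtain ⟨t0, h0, h1, h2⟩ := exists_half hC hc
  refine ⟨t0, h0, h1, fun t ht htt => ?_⟩
  have h3 := h2 t ht htt
  have ht1 := htt.trans h1
  refine ⟨h3.trans (Real.rpow_le_one ht.le ht1 (half_pos hc).le),
    fun P K p AI e0 hmono hK hp hA he01 hbase hstep e he hee => ?_⟩
  exact rec_rounds_q hc ht ht1 (mul_pos hC (Real.rpow_pos_of_pos ht _)) h3 hmono hK hp hA he01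
    hbase hstep he hee

/-! ### logarithms -/

/-- **Absorption of logarithms.** -/
theorem log_absorb {a : ℝ} (ha : 0 < a) (k : ℕ) :
    ∃ C : ℝ, 1 ≤ C ∧ ∀ t : ℝ, 0 < t → t ≤ 1 → (1 + Real.log (1 / t)) ^ k * t ^ a ≤ C * t ^ (a / 2) := by
  rcases Nat.eq_zero_or_pos k with rfl | hk
  · refine ⟨1, le_rfl, fun t ht ht1 => ?_⟩
    rw [pow_zero, one_mul, one_mul]
    exact Real.rpow_le_rpow_of_exponent_ge ht ht1 (by linarith)
  have hk' : (0 : ℝ) < k := by exact_mod_cast hk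
  set b : ℝ := a / (2 * k) with hb
  have hb0 : 0 < b := by rw [hb]; positivity
  refine ⟨(1 + 1 / b) ^ k, ?_, fun t ht ht1 => ?_⟩
  · exact one_le_pow₀ (by have : 0 < 1 / b := by positivity
                          linarith)
  have h1t : 1 ≤ 1 / t := by rw [le_div_iff₀ ht]; linarith
  have hl0 : 0 ≤ Real.log (1 / t) := Real.log_nonneg h1t
  have hl : Real.log (1 / t) ≤ (1 / t) ^ b / b := Real.log_le_rpow_div (by positivity) hb0
  have h1 : 1 ≤ (1 / t) ^ b := Real.one_le_rpow h1t hb0.le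
  have h2 : 1 + Real.log (1 / t) ≤ (1 + 1 / b) * (1 / t) ^ b := by
    have : (1 / t) ^ b / b = 1 / b * (1 / t) ^ b := by ring
    rw [this] at hl
    nlinarith
  have h3 : (1 + Real.log (1 / t)) ^ k ≤ ((1 + 1 / b) * (1 / t) ^ b) ^ k :=
    pow_le_pow_left₀ (by linarith) h2 k
  have h4 : ((1 / t) ^ b) ^ k = t ^ (-(a / 2)) := by
    rw [one_div, Real.inv_rpow ht.le, ← Real.rpow_neg ht.le, ← Real.rpow_natCast,
      ← Real.rpow_mul ht.le]
    congr 1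
    rw [hb]; field_simp
  rw [mul_pow, h4] at h3
  calc (1 + Real.log (1 / t)) ^ k * t ^ a ≤ (1 + 1 / b) ^ k * t ^ (-(a / 2)) * t ^ a :=
        mul_le_mul_of_nonneg_right h3 (Real.rpow_nonneg ht.le _)
    _ = (1 + 1 / b) ^ k * t ^ (a / 2) := by
        rw [mul_assoc, ← Real.rpow_add ht]
        congr 2; ring

/-- a smaller exponent is a larger number -/
theorem rpow_mono {t a b : ℝ} (ht : 0 < t) (ht1 : t ≤ 1) (h : b ≤ a) : t ^ a ≤ t ^ b :=
  Real.rpow_le_rpow_of_exponent_ge ht ht1 h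

/-- the same with the smaller exponent given in advance -/
theorem log_absorb' {a b : ℝ} (hab : b < a) (k : ℕ) :
    ∃ C : ℝ, 1 ≤ C ∧ ∀ t : ℝ, 0 < t → t ≤ 1 → (1 + Real.log (1 / t)) ^ k * t ^ a ≤ C * t ^ b := by
  obtain ⟨C, hC, h⟩ := log_absorb (sub_pos.2 hab) k
  refine ⟨C, hC, fun t ht ht1 => ?_⟩
  have h1 := h t ht ht1
  have e : t ^ a = t ^ (a - b) * t ^ b := by rw [← Real.rpow_add ht]; congr 1; ring
  rw [e, ← mul_assoc]
  have h2 : t ^ ((a - b) / 2) ≤ 1 := Real.rpow_le_one ht.le ht1 (by linarith)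
  have h3 : 0 ≤ t ^ b := Real.rpow_nonneg ht.le _
  calc (1 + Real.log (1 / t)) ^ k * t ^ (a - b) * t ^ b ≤ C * t ^ ((a - b) / 2) * t ^ b :=
        mul_le_mul_of_nonneg_right h1 h3
    _ ≤ C * 1 * t ^ b := mul_le_mul_of_nonneg_right
        (mul_le_mul_of_nonneg_left h2 (by linarith)) h3
    _ = C * t ^ b := by rw [mul_one]

/-- **Finitely many gains in one.**  Every term of the round is `C (1 + log)^k t^(a i)`, possibly
times the black box `1 + B`; all the exponents are larger than `b`. -/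
theorem sum_gains {ι : Type*} (s : Finset ι) {a : ι → ℝ} {b : ℝ}
    (ha : ∀ i ∈ s, b < a i) (k : ℕ) :
    ∃ C : ℝ, 0 ≤ C ∧ ∀ t : ℝ, 0 < t → t ≤ 1 → ∀ B : ℝ, 0 ≤ B →
      ∑ i ∈ s, (1 + B) * ((1 + Real.log (1 / t)) ^ k * t ^ a i) ≤ C * (1 + B) * t ^ b := by
  classical
  have h : ∀ i, ∃ C : ℝ, 0 ≤ C ∧ (i ∈ s → ∀ t : ℝ, 0 < t → t ≤ 1 →
      (1 + Real.log (1 / t)) ^ k * t ^ a i ≤ C * t ^ b) := by
    intro i
    by_cases hi : i ∈ s
    · obtain ⟨C, hC, h⟩ := log_absorb' (ha i hi) k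
      exact ⟨C, by linarith, fun _ => h⟩
    · exact ⟨0, le_rfl, fun h' => absurd h' hi⟩
  choose C hC0 hC using h
  refine ⟨∑ i ∈ s, C i, sum_nonneg fun i _ => hC0 i, fun t ht ht1 B hB => ?_⟩
  rw [sum_mul, sum_mul]
  refine sum_le_sum fun i hi => ?_
  have h1 := mul_le_mul_of_nonneg_left (hC i hi t ht ht1) (by linarith : 0 ≤ 1 + B)
  linarith

/-- a ratio with logarithms: `C (1 + log)^k t ^ c ≤ t ^ (c / 2)` for small `t` -/
theorem exists_half_log {C c : ℝ} (hC : 0 < C) (hc : 0 < c) (k : ℕ) :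
    ∃ t0 : ℝ, 0 < t0 ∧ t0 ≤ 1 ∧ ∀ t : ℝ, 0 < t → t ≤ t0 →
      C * (1 + Real.log (1 / t)) ^ k * t ^ c ≤ t ^ (c / 2) := by
  obtain ⟨C1, hC1, h1⟩ := log_absorb' (a := c) (b := 3 / 4 * c) (by linarith) k
  obtain ⟨t0, h0, h01, h2⟩ := exists_small (mul_pos hC (by linarith : 0 < C1))
    (a := c / 4) (by linarith)
  refine ⟨t0, h0, h01, fun t ht htt => ?_⟩
  have h3 := h1 t ht (htt.trans h01)
  have h4 := h2 t ht htt
  have e : t ^ (3 / 4 * c) = t ^ (c / 4) * t ^ (c / 2) := by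
    rw [← Real.rpow_add ht]; congr 1; ring
  rw [e] at h3
  have h5 : 0 ≤ t ^ (c / 2) := Real.rpow_nonneg ht.le _
  calc C * (1 + Real.log (1 / t)) ^ k * t ^ c = C * ((1 + Real.log (1 / t)) ^ k * t ^ c) := by ring
    _ ≤ C * (C1 * (t ^ (c / 4) * t ^ (c / 2))) := mul_le_mul_of_nonneg_left h3 hC.le
    _ = C * C1 * t ^ (c / 4) * t ^ (c / 2) := by ring
    _ ≤ 1 * t ^ (c / 2) := mul_le_mul_of_nonneg_right h4 h5
    _ = _ := one_mul _

/-- **The final form.**  If the round constant is `K0 (1 + log)^k` and the bottom and the payments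
are `C0 (1 + B) (1 + log)^k t ^ a`, then the constant of the recursion is `C (1 + B) t ^ b`,
`b < a`. -/
theorem rec_final {K0 C0 a b c m : ℝ} (hK0 : 1 ≤ K0) (hC0 : 0 ≤ C0) (hab : b < a) (k : ℕ) :
    ∃ C : ℝ, 0 ≤ C ∧ ∀ t : ℝ, 0 < t → t ≤ 1 → ∀ B : ℝ, 0 ≤ B → ∀ AI p : ℝ,
      AI ≤ C0 * (1 + B) * ((1 + Real.log (1 / t)) ^ k * t ^ a) →
      p ≤ C0 * (1 + B) * ((1 + Real.log (1 / t)) ^ k * t ^ a) →
      K2 (K0 * (1 + Real.log (1 / t)) ^ k) c m * (AI + p) ≤ C * (1 + B) * t ^ b := by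
  obtain ⟨C1, hC1, h1⟩ := log_absorb' hab (k * nr c m + k)
  refine ⟨K2 K0 c m * (2 * C0) * C1,
    mul_nonneg (mul_nonneg (K2_nonneg hK0 c m) (by linarith)) (by linarith),
    fun t ht ht1 B hB AI p hAI hp => ?_⟩
  have h1t : 1 ≤ 1 / t := by rw [le_div_iff₀ ht]; linarith
  have hl0 : 0 ≤ Real.log (1 / t) := Real.log_nonneg h1t
  set l : ℝ := 1 + Real.log (1 / t) with hl
  have hl1 : 1 ≤ l := by rw [hl]; linarith
  have e1 : K2 (K0 * l ^ k) c m = K2 K0 c m * l ^ (k * nr c m) := by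
    unfold K2; rw [mul_pow, ← pow_mul]; ring
  have h2 : AI + p ≤ 2 * C0 * (1 + B) * (l ^ k * t ^ a) := by linarith
  have h3 : 0 ≤ K2 K0 c m * l ^ (k * nr c m) :=
    mul_nonneg (K2_nonneg hK0 c m) (by positivity)
  have h4 := h1 t ht ht1
  rw [← hl] at h4
  rw [e1]
  calc K2 K0 c m * l ^ (k * nr c m) * (AI + p)
      ≤ K2 K0 c m * l ^ (k * nr c m) * (2 * C0 * (1 + B) * (l ^ k * t ^ a)) :=
        mul_le_mul_of_nonneg_left h2 h3
    _ = K2 K0 c m * (2 * C0) * (1 + B) * (l ^ (k * nr c m + k) * t ^ a) := by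
        rw [pow_add]; ring
    _ ≤ K2 K0 c m * (2 * C0) * (1 + B) * (C1 * t ^ b) :=
        mul_le_mul_of_nonneg_left h4 (mul_nonneg (mul_nonneg (K2_nonneg hK0 c m)
          (by linarith)) (by linarith))
    _ = _ := by ring

/-! ### the exponents -/

/-- **The exponents of the recursion.**  `g`: gain of the centre-freeness (`mu ^ (1/4) ≤ t ^ g`).
`kap`: stage-0 windows; `c'`: `lam = e ^ (1/2) t ^ (-c')`; `c`: ratio of the rounds. -/
structure Exps (g kap c c' : ℝ) : Prop where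
  c_pos : 0 < c
  c_lt : c < c'
  kap_pos : 0 < kap
  /-- `lam ≤ 1` for `e ≤ t ^ kap` -/
  lam : c' < kap / 2
  /-- payments in the rounds: `t ^ (c' - c)` -/
  pay : c ≤ c' - c
  /-- final terms: `t ^ (g - c'/2 - c)` -/
  fin : c ≤ g - c' / 2 - c
  /-- black box in the rounds: `t ^ (kap/2 - c)` -/
  box : c ≤ kap / 2 - c
  /-- stage 0: `t ^ (g - kap)`, and the black box there, `t ^ (3 kap / 2 - kap)` -/
  top : c ≤ g - kap
  le_one : kap ≤ 1

/-- the exponents exist for every gain -/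
theorem exists_exps {g : ℝ} (hg : 0 < g) : Exps g (min (g / 4) (1 / 4)) (min (g / 4) (1 / 4) / 32)
    (min (g / 4) (1 / 4) / 8) := by
  have h0 : 0 < min (g / 4) (1 / 4) := lt_min (by linarith) (by norm_num)
  have h1 : min (g / 4) (1 / 4) ≤ g / 4 := min_le_left _ _
  have h2 : min (g / 4) (1 / 4) ≤ 1 / 4 := min_le_right _ _
  constructor <;> linarith

end

end Vale.Agent.P141.H213
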