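import Vale.Agent.P141.H822.Heights
import Vale.Agent.P141.H401.CutData

/-!
# Row energies at the label vertex, summed over `x₀`

`rowX` : a path of vector functions whose row energies, summed over a cell of `x₀`, are bounded on
the affected squares has the same bound on all squares.  `rowX_cut` : cut families.  `rowX_base` :
the families `fb`, `fC` of a class whose fibres are bounded on the alive squares.  `rowX_tie` :
the sum over all `x₀`, the outer cell may depend on the cell of `x₀`.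
-/

set_option linter.unusedSectionVars false

namespace Vale.Agent.P141.H213

open Finset Matrix Vale.Agent.P141.PL Vale.Agent.P141.H958 Vale.Agent.P141.H338
open Vale.Agent.P141.H822 (AgV mem_iv_sub kF_sq_le)
open Vale.Agent.P141.H677 (fb fC kF)
open Vale.Agent.P141.H48 (BSl sst)

noncomputable section

open scoped Classical

variable {κ : Type*} [Fintype κ] [DecidableEq κ] {N : ℕ} {T0 S T : ℤ}

theorem dp_nonneg (w : κ → ℝ) : 0 ≤ w ⬝ᵥ w :=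
  sum_nonneg fun i _ => mul_self_nonneg (w i)

theorem half_mem {N k : ℕ} {T m j : ℤ} (hk : k + 1 ≤ N) (hm : m ∈ iv (N - (k + 1)) T)
    (hj : j = 2 * m ∨ j = 2 * m + 1) : j ∈ iv (N - k) T := by
  have e1 : N - k = (N - (k + 1)) + 1 := by omega
  rw [e1]
  refine mem_iv_add.2 ?_
  have : ix 1 j = m := by
    unfold ix
    rcases hj with hj | hj <;> subst hj <;> omega
  rw [this]
  exact hm

/-- **Rows of a path**, summed over the cells of `x₀`. -/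
theorem rowX {Q : ℕ → ℤ → ℤ → ℤ → Prop} {f : ℤ → ℕ → ℤ → ℤ → κ → ℝ} {b : ℝ} (hb : 0 ≤ b)
    (ag : ∀ x0 ∈ iv N T0, AgV N S T (fun k n m => Q k (ix k x0) n m) (f x0))
    (z : ∀ x0 ∈ iv N T0, f x0 0 = 0)
    (h : ∀ k < N, ∀ q ∈ iv (N - k) T0, ∀ n ∈ iv (N - k) S, ∀ m ∈ iv (N - k) T, Q k q n m →
      ∀ p ∈ iv k n, ∑ x0 ∈ iv k q, ∑ y ∈ iv k m, f x0 (k + 1) p y ⬝ᵥ f x0 (k + 1) p y ≤
        4 ^ k * b) :
    ∀ k < N, ∀ q ∈ iv (N - k) T0, ∀ m ∈ iv (N - k) T, ∀ p ∈ iv N S,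
      ∑ x0 ∈ iv k q, ∑ y ∈ iv k m, f x0 (k + 1) p y ⬝ᵥ f x0 (k + 1) p y ≤ 4 ^ k * b := by
  have hroot : ∀ {k : ℕ} {q x0 : ℤ}, k ≤ N → q ∈ iv (N - k) T0 → x0 ∈ iv k q → x0 ∈ iv N T0 := by
    intro k q x0 hk hq hx
    have h1 : x0 ∈ iv ((N - k) + k) T0 := mem_iv_add.2 (by rw [mem_iv.1 hx]; exact hq)
    rwa [Nat.sub_add_cancel hk] at h1
  intro k
  induction k with
  | zero =>
    intro hk q hq m hm p hp
    have hn := mem_iv_sub (k := 0) hk.le hp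
    have hpn : p ∈ iv 0 (ix 0 p) := mem_iv.2 rfl
    by_cases hQ : Q 0 q (ix 0 p) m
    · exact h 0 hk q hq _ hn m hm hQ p hpn
    · have e : ∀ x0 ∈ iv 0 q, ∑ y ∈ iv 0 m, f x0 (0 + 1) p y ⬝ᵥ f x0 (0 + 1) p y = 0 := by
        intro x0 hx0
        refine sum_eq_zero fun y hy => ?_
        have hx := hroot hk.le hq hx0
        have hQ' : ¬ Q 0 (ix 0 x0) (ix 0 p) m := by rwa [mem_iv.1 hx0]
        rw [ag x0 hx 0 hk _ hn m hm hQ' p hpn y hy, z x0 hx]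
        simp
      rw [sum_congr rfl e, sum_const_zero]
      positivity
  | succ k ih =>
    intro hk q hq m hm p hp
    have hn := mem_iv_sub (k := k + 1) hk.le hp
    have hpn : p ∈ iv (k + 1) (ix (k + 1) p) := mem_iv.2 rfl
    by_cases hQ : Q (k + 1) q (ix (k + 1) p) m
    · exact h (k + 1) hk q hq _ hn m hm hQ p hpn
    · have e : ∀ x0 ∈ iv (k + 1) q, ∑ y ∈ iv (k + 1) m,
          f x0 (k + 1 + 1) p y ⬝ᵥ f x0 (k + 1 + 1) p y =
          ∑ y ∈ iv (k + 1) m, f x0 (k + 1) p y ⬝ᵥ f x0 (k + 1) p y := by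
        intro x0 hx0
        refine sum_congr rfl fun y hy => ?_
        have hx := hroot hk.le hq hx0
        have hQ' : ¬ Q (k + 1) (ix (k + 1) x0) (ix (k + 1) p) m := by rwa [mem_iv.1 hx0]
        rw [ag x0 hx (k + 1) hk _ hn m hm hQ' p hpn y hy]
      rw [sum_congr rfl e, H433.sum_iv_halves]
      have hh : ∀ x0 : ℤ, ∑ y ∈ iv (k + 1) m, f x0 (k + 1) p y ⬝ᵥ f x0 (k + 1) p y =
          ∑ y ∈ iv k (2 * m), f x0 (k + 1) p y ⬝ᵥ f x0 (k + 1) p y +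
          ∑ y ∈ iv k (2 * m + 1), f x0 (k + 1) p y ⬝ᵥ f x0 (k + 1) p y := fun x0 =>
        H433.sum_iv_halves k m _
      simp only [hh, sum_add_distrib]
      have q0 := half_mem hk.le hq (Or.inl rfl)
      have q1 := half_mem hk.le hq (Or.inr rfl)
      have m0 := half_mem hk.le hm (Or.inl rfl)
      have m1 := half_mem hk.le hm (Or.inr rfl)
      have a1 := ih (by omega) (2 * q) q0 (2 * m) m0 p hp
      have a2 := ih (by omega) (2 * q) q0 (2 * m + 1) m1 p hp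
      have a3 := ih (by omega) (2 * q + 1) q1 (2 * m) m0 p hp
      have a4 := ih (by omega) (2 * q + 1) q1 (2 * m + 1) m1 p hp
      rw [pow_succ]
      linarith

/-- **Rows of a cut family.** -/
theorem rowX_cut {Q : ℕ → ℤ → ℤ → ℤ → Prop} {f g : ℤ → ℕ → ℤ → ℤ → κ → ℝ} {b : ℝ} (hb : 0 ≤ b)
    (ag : ∀ x0 ∈ iv N T0, AgV N S T (fun k n m => Q k (ix k x0) n m) (f x0))
    (z : ∀ x0 ∈ iv N T0, f x0 0 = 0)
    (rows : ∀ x0 ∈ iv N T0, ∀ k < N, ∀ n ∈ iv (N - k) S, ∀ m ∈ iv (N - k) T,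
      Q k (ix k x0) n m → ∀ p ∈ iv k n, ∑ y ∈ iv k m, f x0 (k + 1) p y ⬝ᵥ f x0 (k + 1) p y ≤
        ∑ y ∈ iv k m, g x0 (k + 1) p y ⬝ᵥ g x0 (k + 1) p y)
    (h : ∀ k < N, ∀ q ∈ iv (N - k) T0, ∀ m ∈ iv (N - k) T, ∀ p ∈ iv N S,
      ∑ x0 ∈ iv k q, ∑ y ∈ iv k m, g x0 (k + 1) p y ⬝ᵥ g x0 (k + 1) p y ≤ 4 ^ k * b) :
    ∀ k < N, ∀ q ∈ iv (N - k) T0, ∀ m ∈ iv (N - k) T, ∀ p ∈ iv N S,
      ∑ x0 ∈ iv k q, ∑ y ∈ iv k m, f x0 (k + 1) p y ⬝ᵥ f x0 (k + 1) p y ≤ 4 ^ k * b := by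
  refine rowX hb ag z fun k hk q hq n hn m hm hQ p hp => ?_
  have hpN : p ∈ iv N S := by
    have h1 : p ∈ iv ((N - k) + k) S := mem_iv_add.2 (by rw [mem_iv.1 hp]; exact hn)
    rwa [Nat.sub_add_cancel hk.le] at h1
  refine le_trans (sum_le_sum fun x0 hx0 => ?_) (h k hk q hq m hm p hpN)
  have hx : x0 ∈ iv N T0 := by
    have h1 : x0 ∈ iv ((N - k) + k) T0 := mem_iv_add.2 (by rw [mem_iv.1 hx0]; exact hq)
    rwa [Nat.sub_add_cancel hk.le] at h1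
  exact rows x0 hx k hk n hn m hm (by rw [mem_iv.1 hx0]; exact hQ) p hp

/-- **Rows of the base family**, from the fibres on the alive squares. -/
theorem rowX_base {n : ℕ} {e cP lam : ℝ} {F : ℕ → Pt → ℝ} {Q : ℕ → Pt → Prop}
    (hF : BSl n e cP F Q) (he : 0 ≤ e) (hl : 0 ≤ lam) (hN : N ≤ n) {u : ℤ → ℤ → κ → ℝ} {Λ : ℝ}
    {a : ℤ × ℤ → ℝ}
    (fib : ∀ k ≤ N, ∀ x ∈ iv N S, ∀ y ∈ iv N T, ¬ sst Λ a N k x y →
      ∑ y' ∈ iv k (ix k y), u x y' ⬝ᵥ u x y' ≤ lam * 2 ^ k) :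
    ∀ k < N, ∀ q ∈ iv (N - k) T0, ∀ m ∈ iv (N - k) T, ∀ p ∈ iv N S,
      ∑ x0 ∈ iv k q, ∑ y ∈ iv k m,
        (kF Λ a N F (k + 1) (x0, p, y) • u p y) ⬝ᵥ (kF Λ a N F (k + 1) (x0, p, y) • u p y) ≤
        4 ^ k * (2 * e * lam) := by
  intro k hk q _ m hm p hp
  have hroot : ∀ y ∈ iv k m, y ∈ iv N T := by
    intro y hy
    have h1 : y ∈ iv ((N - k) + k) T := mem_iv_add.2 (by rw [mem_iv.1 hy]; exact hm)
    rwa [Nat.sub_add_cancel hk.le] at h1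
  have hR : (0 : ℝ) ≤ 4 ^ k * (2 * e * lam) := by positivity
  rw [sum_comm]
  by_cases hd : sst Λ a N (k + 1) p (2 ^ k * m)
  · refine le_trans (le_of_eq ?_) hR
    refine sum_eq_zero fun y hy => sum_eq_zero fun x0 _ => ?_
    have e1 : ix (k + 1) y = ix (k + 1) (2 ^ k * m) := by
      rw [← ix_ix k 1, ← ix_ix k 1, mem_iv.1 hy]
      congr 1
      unfold ix
      rw [Int.mul_ediv_cancel_left _ (by positivity)]
    have h1 : sst Λ a N (k + 1) p y := (H769.sst_congr rfl e1).2 hd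
    unfold kF
    rw [if_pos (Or.inr h1), zero_smul, zero_dotProduct]
  · have hy0 : (2 : ℤ) ^ k * m ∈ iv k m := by
      rw [mem_iv]
      unfold ix
      rw [Int.mul_ediv_cancel_left _ (by positivity)]
    have h2 := fib (k + 1) hk p hp _ (hroot _ hy0) hd
    have h3 : ∑ y ∈ iv k m, u p y ⬝ᵥ u p y ≤ lam * 2 ^ (k + 1) := by
      refine le_trans (sum_le_sum_of_subset_of_nonneg (fun y hy => ?_) fun y _ _ => ?_) h2
      · rw [mem_iv, ← ix_ix k 1, ← ix_ix k 1, mem_iv.1 hy, mem_iv.1 hy0]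
      · exact dp_nonneg _
    have h4 : ∀ y ∈ iv k m, ∑ x0 ∈ iv k q,
        (kF Λ a N F (k + 1) (x0, p, y) • u p y) ⬝ᵥ (kF Λ a N F (k + 1) (x0, p, y) • u p y) ≤
        (e * 2 ^ k) * (u p y ⬝ᵥ u p y) := by
      intro y _
      have h5 := (sum_le_sum fun x0 (_ : x0 ∈ iv k q) =>
        kF_sq_le Λ a N F (k + 1) (x0, p, y)).trans (hF.l0 k (hk.trans_le hN) q p y)
      have h6 := mul_le_mul_of_nonneg_right h5 (dp_nonneg (u p y))
      refine le_trans (le_of_eq ?_) h6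
      rw [sum_mul]
      refine sum_congr rfl fun x0 _ => ?_
      rw [smul_dotProduct, dotProduct_smul, smul_eq_mul, smul_eq_mul]
      ring
    refine (sum_le_sum h4).trans ?_
    rw [← mul_sum]
    refine (mul_le_mul_of_nonneg_left h3 (by positivity)).trans (le_of_eq ?_)
    rw [show (4 : ℝ) = 2 * 2 by norm_num, mul_pow, pow_succ]
    ring

/-- **The sum over all `x₀`**, the outer cell depends on the cell of `x₀`. -/
theorem rowX_tie {f : ℤ → ℕ → ℤ → ℤ → κ → ℝ} {b : ℝ} (hb : 0 ≤ b)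
    (h : ∀ k < N, ∀ q ∈ iv (N - k) T0, ∀ m ∈ iv (N - k) T, ∀ p ∈ iv N S,
      ∑ x0 ∈ iv k q, ∑ y ∈ iv k m, f x0 (k + 1) p y ⬝ᵥ f x0 (k + 1) p y ≤ 4 ^ k * b)
    {k : ℕ} (hk : k < N) {p : ℤ} (hp : p ∈ iv N S) (τ : ℤ → ℤ) :
    ∑ x0 ∈ iv N T0, (if τ (ix k x0) ∈ iv (N - k) T then
      ∑ y ∈ iv k (τ (ix k x0)), f x0 (k + 1) p y ⬝ᵥ f x0 (k + 1) p y else 0) ≤
      2 ^ N * (2 ^ k * b) := by
  have e1 := H433.sum_iv_nest (N - k) k T0 (fun x0 => if τ (ix k x0) ∈ iv (N - k) T then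
      ∑ y ∈ iv k (τ (ix k x0)), f x0 (k + 1) p y ⬝ᵥ f x0 (k + 1) p y else 0)
  rw [Nat.sub_add_cancel hk.le] at e1
  rw [← e1]
  have h1 : ∀ q ∈ iv (N - k) T0, ∑ x0 ∈ iv k q, (if τ (ix k x0) ∈ iv (N - k) T then
      ∑ y ∈ iv k (τ (ix k x0)), f x0 (k + 1) p y ⬝ᵥ f x0 (k + 1) p y else 0) ≤ 4 ^ k * b := by
    intro q hq
    by_cases hm : τ q ∈ iv (N - k) T
    · refine le_trans (le_of_eq (sum_congr rfl fun x0 hx0 => ?_)) (h k hk q hq _ hm p hp)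
      rw [mem_iv.1 hx0, if_pos hm]
    · refine le_trans (le_of_eq (sum_eq_zero fun x0 hx0 => ?_)) (by positivity)
      rw [mem_iv.1 hx0, if_neg hm]
  refine (sum_le_sum h1).trans (le_of_eq ?_)
  rw [H433.sum_const_iv, show (4 : ℝ) = 2 * 2 by norm_num, mul_pow]
  have h2 : (2 : ℝ) ^ N = 2 ^ (N - k) * 2 ^ k := by
    rw [← pow_add, Nat.sub_add_cancel hk.le]
  rw [h2]
  ring

end

end Vale.Agent.P141.H213
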