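import Vale.Agent.P141.H213.RowX
import Vale.Agent.P141.H401.CutData

/-!
# Row energies of the class families at the label vertex

`rowY`, `rowY_tie` : the bounds of `RowX` on cells of scale `k + 1` at time `k + 1`.
`row_mb`, `row_b1`, `row_cb`, `row_mC` : the families of the class.
`lab_free`, `lab_tied` : sums over the labels, free cell and cell tied to the point `x₀`.
`rB_mb`, `rB_b1`, `rB_cb`, `rC_mC` : the two together.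
-/

set_option linter.unusedSectionVars false

namespace Vale.Agent.P141.H213

open Finset Matrix Vale.Agent.P141.PL Vale.Agent.P141.H958 Vale.Agent.P141.H338
open Vale.Agent.P141.H822 (AgV mem_iv_sub ht_cu)
open Vale.Agent.P141.H677 (fb fC kF)
open Vale.Agent.P141.H48 (BSl sst)
open Vale.Agent.P141.PL.H315 (Tri)
open Vale.Agent.P141.H401 (mb mC b1 cb qB)

noncomputable section

open scoped Classical

variable {N : ℕ} {T0 S T : ℤ}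

section gen

variable {κ : Type*} [Fintype κ] [DecidableEq κ]

/-- rows on the cells of scale `k + 1` -/
theorem rowY {f : ℤ → ℕ → ℤ → ℤ → κ → ℝ} {b : ℝ}
    (h : ∀ k < N, ∀ q ∈ iv (N - k) T0, ∀ m ∈ iv (N - k) T, ∀ p ∈ iv N S,
      ∑ x0 ∈ iv k q, ∑ y ∈ iv k m, f x0 (k + 1) p y ⬝ᵥ f x0 (k + 1) p y ≤ 4 ^ k * b) :
    ∀ k < N, ∀ q ∈ iv (N - (k + 1)) T0, ∀ m ∈ iv (N - (k + 1)) T, ∀ p ∈ iv N S,
      ∑ x0 ∈ iv (k + 1) q, ∑ y ∈ iv (k + 1) m, f x0 (k + 1) p y ⬝ᵥ f x0 (k + 1) p y ≤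
        4 ^ (k + 1) * b := by
  intro k hk q hq m hm p hp
  rw [H433.sum_iv_halves]
  have hh : ∀ x0 : ℤ, ∑ y ∈ iv (k + 1) m, f x0 (k + 1) p y ⬝ᵥ f x0 (k + 1) p y =
      ∑ y ∈ iv k (2 * m), f x0 (k + 1) p y ⬝ᵥ f x0 (k + 1) p y +
      ∑ y ∈ iv k (2 * m + 1), f x0 (k + 1) p y ⬝ᵥ f x0 (k + 1) p y := fun x0 =>
    H433.sum_iv_halves k m _
  simp only [hh, sum_add_distrib]
  have q0 := half_mem hk hq (Or.inl rfl)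
  have q1 := half_mem hk hq (Or.inr rfl)
  have m0 := half_mem hk hm (Or.inl rfl)
  have m1 := half_mem hk hm (Or.inr rfl)
  have a1 := h k hk (2 * q) q0 (2 * m) m0 p hp
  have a2 := h k hk (2 * q) q0 (2 * m + 1) m1 p hp
  have a3 := h k hk (2 * q + 1) q1 (2 * m) m0 p hp
  have a4 := h k hk (2 * q + 1) q1 (2 * m + 1) m1 p hp
  rw [pow_succ]
  linarith

/-- **The sum over `x₀`** on cells of scale `k + 1`. -/
theorem rowY_tie {f : ℤ → ℕ → ℤ → ℤ → κ → ℝ} {b : ℝ} (hb : 0 ≤ b)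
    (h : ∀ k < N, ∀ q ∈ iv (N - k) T0, ∀ m ∈ iv (N - k) T, ∀ p ∈ iv N S,
      ∑ x0 ∈ iv k q, ∑ y ∈ iv k m, f x0 (k + 1) p y ⬝ᵥ f x0 (k + 1) p y ≤ 4 ^ k * b)
    {X : Finset ℤ} (hX : X ⊆ iv N T0) {k : ℕ} (hk : k < N) {p : ℤ} (hp : p ∈ iv N S)
    (τ : ℤ → ℤ) :
    ∑ x0 ∈ X, (if τ (ix (k + 1) x0) ∈ iv (N - (k + 1)) T then
      ∑ y ∈ iv (k + 1) (τ (ix (k + 1) x0)), f x0 (k + 1) p y ⬝ᵥ f x0 (k + 1) p y else 0) ≤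
      2 ^ (k + 1) * (2 ^ N * b) := by
  have nn : ∀ x0 : ℤ, 0 ≤ (if τ (ix (k + 1) x0) ∈ iv (N - (k + 1)) T then
      ∑ y ∈ iv (k + 1) (τ (ix (k + 1) x0)), f x0 (k + 1) p y ⬝ᵥ f x0 (k + 1) p y else 0) := by
    intro x0
    split_ifs
    · exact sum_nonneg fun y _ => dp_nonneg _
    · exact le_refl 0
  refine (sum_le_sum_of_subset_of_nonneg hX fun x0 _ _ => nn x0).trans ?_
  have e1 := H433.sum_iv_nest (N - (k + 1)) (k + 1) T0 (fun x0 =>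
      if τ (ix (k + 1) x0) ∈ iv (N - (k + 1)) T then
      ∑ y ∈ iv (k + 1) (τ (ix (k + 1) x0)), f x0 (k + 1) p y ⬝ᵥ f x0 (k + 1) p y else 0)
  rw [Nat.sub_add_cancel hk] at e1
  rw [← e1]
  have h1 : ∀ q ∈ iv (N - (k + 1)) T0, ∑ x0 ∈ iv (k + 1) q,
      (if τ (ix (k + 1) x0) ∈ iv (N - (k + 1)) T then
      ∑ y ∈ iv (k + 1) (τ (ix (k + 1) x0)), f x0 (k + 1) p y ⬝ᵥ f x0 (k + 1) p y else 0) ≤
      4 ^ (k + 1) * b := by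
    intro q hq
    by_cases hm : τ q ∈ iv (N - (k + 1)) T
    · refine le_trans (le_of_eq (sum_congr rfl fun x0 hx0 => ?_)) (rowY h k hk q hq _ hm p hp)
      rw [mem_iv.1 hx0, if_pos hm]
    · refine le_trans (le_of_eq (sum_eq_zero fun x0 hx0 => ?_)) (by positivity)
      rw [mem_iv.1 hx0, if_neg hm]
  refine (sum_le_sum h1).trans (le_of_eq ?_)
  rw [H433.sum_const_iv, show (4 : ℝ) = 2 * 2 by norm_num, mul_pow]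
  have h2 : (2 : ℝ) ^ N = 2 ^ (N - (k + 1)) * 2 ^ (k + 1) := by
    rw [← pow_add, Nat.sub_add_cancel hk]
  rw [h2]
  ring

/-- **Free cell, sum over the labels.** -/
theorem lab_free {f : ℤ → ℕ → ℤ → ℤ → κ → ℝ} {b : ℝ} (hb : 0 ≤ b) {L : ℕ} {e : κ → ℤ}
    (he : Function.Injective e) (hm : ∀ i, e i ∈ lbs L)
    (h : ∀ k < N, ∀ q ∈ iv (N - k) T0, ∀ m ∈ iv (N - k) T, ∀ p ∈ iv N S,
      ∑ x0 ∈ iv k q, ∑ y ∈ iv k m, f x0 (k + 1) p y ⬝ᵥ f x0 (k + 1) p y ≤ 4 ^ k * b)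
    {X : Finset ℤ} (hX : X ⊆ iv N T0) :
    ∀ k < N, ∀ p ∈ iv N S, ∀ n' ∈ iv (N - (k + 1)) T,
      ∑ i ∈ X, ∑ y ∈ iv (k + 1) n', ∑ l ∈ lbs L, cu e (f i (k + 1) p y) l ^ 2 ≤
        2 ^ (k + 1) * (2 ^ N * b) := by
  intro k hk p hp n' hn
  refine le_trans (le_of_eq ?_) (rowY_tie hb h hX hk hp fun _ => n')
  refine sum_congr rfl fun i _ => ?_
  rw [if_pos hn]
  exact sum_congr rfl fun y _ => ht_cu he hm _

/-- **Cell tied to the point `x₀`, sum over the labels.** -/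
theorem lab_tied {f : ℤ → ℕ → ℤ → ℤ → κ → ℝ} {b : ℝ} (hb : 0 ≤ b) {L : ℕ} {e : κ → ℤ}
    (he : Function.Injective e) (hm : ∀ i, e i ∈ lbs L)
    (h : ∀ k < N, ∀ q ∈ iv (N - k) T0, ∀ m ∈ iv (N - k) T, ∀ p ∈ iv N S,
      ∑ x0 ∈ iv k q, ∑ y ∈ iv k m, f x0 (k + 1) p y ⬝ᵥ f x0 (k + 1) p y ≤ 4 ^ k * b)
    {X : Finset ℤ} (hX : X ⊆ iv N T0) {c : ℤ → ℕ → ℤ}
    (hc : ∀ k i j, ix k i = ix k j → c i k = c j k) :
    ∀ k < N, ∀ p ∈ iv N S, ∀ n' : ℤ,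
      ∑ i ∈ X, (if c i (k + 1) - ix (k + 1) p - n' ∈ iv (N - (k + 1)) T then
        ∑ y ∈ iv (k + 1) (c i (k + 1) - ix (k + 1) p - n'),
          ∑ l ∈ lbs L, cu e (f i (k + 1) p y) l ^ 2 else 0) ≤ 2 ^ (k + 1) * (2 ^ N * b) := by
  intro k hk p hp n'
  refine le_trans (le_of_eq ?_) (rowY_tie hb h hX hk hp fun q =>
    c (2 ^ (k + 1) * q) (k + 1) - ix (k + 1) p - n')
  refine sum_congr rfl fun i _ => ?_
  have hi : c (2 ^ (k + 1) * ix (k + 1) i) (k + 1) = c i (k + 1) := by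
    refine hc _ _ _ ?_
    show (2 : ℤ) ^ (k + 1) * ix (k + 1) i / 2 ^ (k + 1) = ix (k + 1) i
    rw [Int.mul_ediv_cancel_left _ (by positivity)]
  rw [hi]
  refine if_congr Iff.rfl ?_ rfl
  exact sum_congr rfl fun y _ => ht_cu he hm _

end gen

section cls

variable {ι : Type} [Fintype ι] [DecidableEq ι]

/-- rows of the killed family `b` -/
theorem row_mb {p : H401.Num} {U : Tri} {n : ℕ} {e cP lam : ℝ} {F3 : ℕ → Pt → ℝ} {Q3 : ℕ → Pt → Prop}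
    (hF : BSl n e cP F3 Q3) (he : 0 ≤ e) (hl : 0 ≤ lam) (hN : N ≤ n) {u : ℤ → ℤ → ι → ℝ}
    (fib : ∀ k ≤ N, ∀ x ∈ iv N S, ∀ y ∈ iv N T, ¬ sst p.Lm U.1 N k x y →
      ∑ y' ∈ iv k (ix k y), u x y' ⬝ᵥ u x y' ≤ lam * 2 ^ k) :
    ∀ k < N, ∀ q ∈ iv (N - k) T0, ∀ m ∈ iv (N - k) T, ∀ x ∈ iv N S,
      ∑ x0 ∈ iv k q, ∑ y ∈ iv k m, mb p U N u F3 x0 (k + 1) x y ⬝ᵥ mb p U N u F3 x0 (k + 1) x y ≤
        4 ^ k * (2 * e * lam) :=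
  rowX_base hF he hl hN fib

/-- rows of the killed family `C`, the point `x₁` outside -/
theorem row_mC {p : H401.Num} {U : Tri} {n : ℕ} {e cP lam : ℝ} {F2 : ℕ → Pt → ℝ} {Q2 : ℕ → Pt → Prop}
    (hF : BSl n e cP F2 Q2) (he : 0 ≤ e) (hl : 0 ≤ lam) (hN : N ≤ n) {v : ℤ → ℤ → ι → ℝ}
    (fib : ∀ k ≤ N, ∀ x ∈ iv N S, ∀ z ∈ iv N T, ¬ sst p.Lm U.2.1 N k x z →
      ∑ y' ∈ iv k (ix k z), v x y' ⬝ᵥ v x y' ≤ lam * 2 ^ k) :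
    ∀ k < N, ∀ q ∈ iv (N - k) T0, ∀ m ∈ iv (N - k) T, ∀ x ∈ iv N S,
      ∑ x0 ∈ iv k q, ∑ z ∈ iv k m, mC p U N v F2 x0 (k + 1) z x ⬝ᵥ mC p U N v F2 x0 (k + 1) z x ≤
        4 ^ k * (2 * e * lam) :=
  rowX_base hF he hl hN fib

/-- rows of the low part `b1` -/
theorem row_b1 {p : H401.Num} {s r : ℝ} {U : Tri} {n : ℕ} {e cP lam : ℝ} {F3 : ℕ → Pt → ℝ}
    {Q3 : ℕ → Pt → Prop} (hF : BSl n e cP F3 Q3) (he : 0 ≤ e) (hl : 0 ≤ lam) (hN : N ≤ n)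
    {u : ℤ → ℤ → ι → ℝ}
    (fib : ∀ k ≤ N, ∀ x ∈ iv N S, ∀ y ∈ iv N T, ¬ sst p.Lm U.1 N k x y →
      ∑ y' ∈ iv k (ix k y), u x y' ⬝ᵥ u x y' ≤ lam * 2 ^ k) :
    ∀ k < N, ∀ q ∈ iv (N - k) T0, ∀ m ∈ iv (N - k) T, ∀ x ∈ iv N S,
      ∑ x0 ∈ iv k q, ∑ y ∈ iv k m,
        b1 p s r U N u F3 Q3 x0 (k + 1) x y ⬝ᵥ b1 p s r U N u F3 Q3 x0 (k + 1) x y ≤
        4 ^ k * (2 * e * lam) := by
  refine rowX_cut (Q := fun k i a b => qB p U N Q3 k i a b) (g := mb p U N u F3)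
    (f := b1 p s r U N u F3 Q3) (by positivity) ?_ ?_ ?_ (row_mb hF he hl hN fib)
  · intro x0 _ k _ a _ b _ hQ x hx y hy
    exact H205.lowF_off hQ hx hy
  · intro x0 _
    exact H205.lowF_zero
  · intro x0 _ k _ a _ b _ hQ x hx
    refine le_trans (le_of_eq ?_) (H205.cut_row (P := H205.prL k (mb p U N u F3 x0 (k + 1))
      (p.th s r ^ 2) a b) (H205.lowP_transpose _ _) (H205.lowP_idem _ _) b
      (mb p U N u F3 x0 (k + 1) x))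
    refine sum_congr rfl fun y hy => ?_
    have h1 : b1 p s r U N u F3 Q3 x0 (k + 1) x y = _ :=
      H205.lowF_on (Q := fun k n m => qB p U N Q3 k (ix k x0) n m) (c := p.th s r ^ 2)
        (F := mb p U N u F3 x0) hQ hx hy
    rw [h1]

/-- rows of the low part `cb` -/
theorem row_cb {p : H401.Num} {s r : ℝ} {U : Tri} {n : ℕ} {e cP lam : ℝ} {F3 : ℕ → Pt → ℝ}
    {Q3 : ℕ → Pt → Prop} (hF : BSl n e cP F3 Q3) (he : 0 ≤ e) (hl : 0 ≤ lam) (hN : N ≤ n)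
    {u : ℤ → ℤ → ι → ℝ}
    (fib : ∀ k ≤ N, ∀ x ∈ iv N S, ∀ y ∈ iv N T, ¬ sst p.Lm U.1 N k x y →
      ∑ y' ∈ iv k (ix k y), u x y' ⬝ᵥ u x y' ≤ lam * 2 ^ k) :
    ∀ k < N, ∀ q ∈ iv (N - k) T0, ∀ m ∈ iv (N - k) T, ∀ x ∈ iv N S,
      ∑ x0 ∈ iv k q, ∑ y ∈ iv k m,
        cb p s r U N u F3 Q3 x0 (k + 1) x y ⬝ᵥ cb p s r U N u F3 Q3 x0 (k + 1) x y ≤
        4 ^ k * (2 * e * lam) := by
  refine rowX_cut (Q := fun k i a b => qB p U N Q3 k i a b) (g := b1 p s r U N u F3 Q3)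
    (f := cb p s r U N u F3 Q3) (by positivity) ?_ ?_ ?_ (row_b1 hF he hl hN fib)
  · intro x0 _ k _ a _ b _ hQ x hx y hy
    exact H80.lowG_off (Q := fun k n m => qB p U N Q3 k (ix k x0) n m)
      (Pr := H80.prW (H677.KT (p.lam s r) u) (p.be s r ^ 2 / √(p.lam s r))
        (b1 p s r U N u F3 Q3 x0)) (F := b1 p s r U N u F3 Q3 x0) hQ hx hy
  · intro x0 _
    rfl
  · intro x0 _ k _ a _ b _ hQ x hx
    refine le_trans (le_of_eq ?_) (H205.cut_row (P := H80.prW (H677.KT (p.lam s r) u)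
      (p.be s r ^ 2 / √(p.lam s r)) (b1 p s r U N u F3 Q3 x0) k a b)
      (H80.prW_tr _ _ _ k a b) (H80.prW_idem _ _ _ k a b) b
      (b1 p s r U N u F3 Q3 x0 (k + 1) x))
    refine sum_congr rfl fun y hy => ?_
    have h1 : cb p s r U N u F3 Q3 x0 (k + 1) x y = _ :=
      H80.lowG_on (Q := fun k n m => qB p U N Q3 k (ix k x0) n m)
        (Pr := H80.prW (H677.KT (p.lam s r) u) (p.be s r ^ 2 / √(p.lam s r))
          (b1 p s r U N u F3 Q3 x0)) (F := b1 p s r U N u F3 Q3 x0) hQ hx hy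
    rw [h1]

/-- the free rows of `mb` with labels -/
theorem rB_mb {p : H401.Num} {U : Tri} {n : ℕ} {e cP lam : ℝ} {F3 : ℕ → Pt → ℝ}
    {Q3 : ℕ → Pt → Prop} (hF : BSl n e cP F3 Q3) (he : 0 ≤ e) (hl : 0 ≤ lam) (hN : N ≤ n)
    {u : ℤ → ℤ → ι → ℝ}
    (fib : ∀ k ≤ N, ∀ x ∈ iv N S, ∀ y ∈ iv N T, ¬ sst p.Lm U.1 N k x y →
      ∑ y' ∈ iv k (ix k y), u x y' ⬝ᵥ u x y' ≤ lam * 2 ^ k)
    {L : ℕ} {el : ι → ℤ} (hi : Function.Injective el) (hm : ∀ i, el i ∈ lbs L)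
    {X : Finset ℤ} (hX : X ⊆ iv N T0) :
    ∀ k < N, ∀ y ∈ iv N S, ∀ n' ∈ iv (N - (k + 1)) T,
      ∑ i ∈ X, ∑ x ∈ iv (k + 1) n', ∑ l ∈ lbs L, cu el (mb p U N u F3 i (k + 1) y x) l ^ 2 ≤
        2 ^ (k + 1) * (2 ^ N * (2 * e * lam)) :=
  lab_free (by positivity) hi hm (row_mb hF he hl hN fib) hX

/-- the free rows of `b1` with labels -/
theorem rB_b1 {p : H401.Num} {s r : ℝ} {U : Tri} {n : ℕ} {e cP lam : ℝ} {F3 : ℕ → Pt → ℝ}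
    {Q3 : ℕ → Pt → Prop} (hF : BSl n e cP F3 Q3) (he : 0 ≤ e) (hl : 0 ≤ lam) (hN : N ≤ n)
    {u : ℤ → ℤ → ι → ℝ}
    (fib : ∀ k ≤ N, ∀ x ∈ iv N S, ∀ y ∈ iv N T, ¬ sst p.Lm U.1 N k x y →
      ∑ y' ∈ iv k (ix k y), u x y' ⬝ᵥ u x y' ≤ lam * 2 ^ k)
    {L : ℕ} {el : ι → ℤ} (hi : Function.Injective el) (hm : ∀ i, el i ∈ lbs L)
    {X : Finset ℤ} (hX : X ⊆ iv N T0) :
    ∀ k < N, ∀ y ∈ iv N S, ∀ n' ∈ iv (N - (k + 1)) T,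
      ∑ i ∈ X, ∑ x ∈ iv (k + 1) n', ∑ l ∈ lbs L,
        cu el (b1 p s r U N u F3 Q3 i (k + 1) y x) l ^ 2 ≤
        2 ^ (k + 1) * (2 ^ N * (2 * e * lam)) :=
  lab_free (by positivity) hi hm (row_b1 hF he hl hN fib) hX

/-- **the free rows of `cb` with labels** -/
theorem rB_cb {p : H401.Num} {s r : ℝ} {U : Tri} {n : ℕ} {e cP lam : ℝ} {F3 : ℕ → Pt → ℝ}
    {Q3 : ℕ → Pt → Prop} (hF : BSl n e cP F3 Q3) (he : 0 ≤ e) (hl : 0 ≤ lam) (hN : N ≤ n)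
    {u : ℤ → ℤ → ι → ℝ}
    (fib : ∀ k ≤ N, ∀ x ∈ iv N S, ∀ y ∈ iv N T, ¬ sst p.Lm U.1 N k x y →
      ∑ y' ∈ iv k (ix k y), u x y' ⬝ᵥ u x y' ≤ lam * 2 ^ k)
    {L : ℕ} {el : ι → ℤ} (hi : Function.Injective el) (hm : ∀ i, el i ∈ lbs L)
    {X : Finset ℤ} (hX : X ⊆ iv N T0) :
    ∀ k < N, ∀ y ∈ iv N S, ∀ n' ∈ iv (N - (k + 1)) T,
      ∑ i ∈ X, ∑ x ∈ iv (k + 1) n', ∑ l ∈ lbs L,
        cu el (cb p s r U N u F3 Q3 i (k + 1) y x) l ^ 2 ≤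
        2 ^ (k + 1) * (2 ^ N * (2 * e * lam)) :=
  lab_free (by positivity) hi hm (row_cb hF he hl hN fib) hX

/-- **the tied rows of `mC` with labels** -/
theorem rC_mC {p : H401.Num} {U : Tri} {n : ℕ} {e cP lam : ℝ} {F2 : ℕ → Pt → ℝ}
    {Q2 : ℕ → Pt → Prop} (hF : BSl n e cP F2 Q2) (he : 0 ≤ e) (hl : 0 ≤ lam) (hN : N ≤ n)
    {v : ℤ → ℤ → ι → ℝ}
    (fib : ∀ k ≤ N, ∀ x ∈ iv N S, ∀ z ∈ iv N T, ¬ sst p.Lm U.2.1 N k x z →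
      ∑ y' ∈ iv k (ix k z), v x y' ⬝ᵥ v x y' ≤ lam * 2 ^ k)
    {L : ℕ} {el : ι → ℤ} (hi : Function.Injective el) (hm : ∀ i, el i ∈ lbs L)
    {X : Finset ℤ} (hX : X ⊆ iv N T0) {c : ℤ → ℕ → ℤ}
    (hc : ∀ k i j, ix k i = ix k j → c i k = c j k) :
    ∀ k < N, ∀ y ∈ iv N S, ∀ n' : ℤ,
      ∑ i ∈ X, (if c i (k + 1) - ix (k + 1) y - n' ∈ iv (N - (k + 1)) T then
        ∑ x ∈ iv (k + 1) (c i (k + 1) - ix (k + 1) y - n'),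
          ∑ l ∈ lbs L, cu el (mC p U N v F2 i (k + 1) x y) l ^ 2 else 0) ≤
        2 ^ (k + 1) * (2 ^ N * (2 * e * lam)) :=
  lab_tied (f := fun i k a z => mC p U N v F2 i k z a) (by positivity) hi hm
    (row_mC hF he hl hN fib) hX hc

end cls

end

end Vale.Agent.P141.H213
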