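import Vale.Agent.P141.H213.RowY
import Vale.Agent.P141.H401.DvS

/-!
# The rows of the crude pair, class data

`row_smul` : rows of a multiple of a family.  `rC_mCz` : the tied rows of `(√ez)⁻¹ • mC`.
`rowsZ` : both row hypotheses of the crude pair of the gap part, the number is
`2 ^ K * (2 e lam1)`.
-/

set_option linter.unusedSectionVars false

namespace Vale.Agent.P141.H213

open Finset Matrix Vale.Agent.P141.PL Vale.Agent.P141.H958 Vale.Agent.P141.H338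
open Vale.Agent.P141.H822 (AgV mem_iv_sub ht_cu)
open Vale.Agent.P141.H677 (fb fC kF cP cP_ix)
open Vale.Agent.P141.H677.Sk (lam1)
open Vale.Agent.P141.H48 (BSl sst)
open Vale.Agent.P141.PL.H315 (Tri)
open Vale.Agent.P141.H401 (mb mC b1 cb qB FibP)

noncomputable section

open scoped Classical

theorem row_smul {κ : Type*} [Fintype κ] [DecidableEq κ] {N : ℕ} {T0 S T : ℤ}
    {f : ℤ → ℕ → ℤ → ℤ → κ → ℝ} {b c : ℝ}
    (h : ∀ k < N, ∀ q ∈ iv (N - k) T0, ∀ m ∈ iv (N - k) T, ∀ p ∈ iv N S,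
      ∑ x0 ∈ iv k q, ∑ y ∈ iv k m, f x0 (k + 1) p y ⬝ᵥ f x0 (k + 1) p y ≤ 4 ^ k * b) :
    ∀ k < N, ∀ q ∈ iv (N - k) T0, ∀ m ∈ iv (N - k) T, ∀ p ∈ iv N S,
      ∑ x0 ∈ iv k q, ∑ y ∈ iv k m, (c • f x0 (k + 1) p y) ⬝ᵥ (c • f x0 (k + 1) p y) ≤
        4 ^ k * (c ^ 2 * b) := by
  intro k hk q hq m hm p hp
  have h1 := mul_le_mul_of_nonneg_left (h k hk q hq m hm p hp) (sq_nonneg c)
  refine le_trans (le_of_eq ?_) (h1.trans (le_of_eq (by ring)))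
  rw [mul_sum]
  refine sum_congr rfl fun x0 _ => ?_
  rw [mul_sum]
  refine sum_congr rfl fun y _ => ?_
  rw [smul_dotProduct, dotProduct_smul, smul_eq_mul, smul_eq_mul]
  ring

variable {ι : Type} [Fintype ι] [DecidableEq ι]

/-- **the rows of the crude pair** -/
theorem rowsZ {p : H401.Num} {n : ℕ} {ez : ℝ} {F2 F3 : ℕ → Pt → ℝ} {Q2 Q3 : ℕ → Pt → Prop}
    {K : ℕ} {x : Pt} {s r : ℝ} {U : Tri} {u v : ℤ → ℤ → ι → ℝ} (hK : K ≤ n) (he : 1 ≤ p.e)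
    (hl : 0 ≤ lam1 p s r) (hez : 0 < ez) (q2 : BSl n ez p.cP F2 Q2)
    (q3 : BSl n p.e p.cP F3 Q3)
    (fu : ∀ k ≤ K, ∀ x1 ∈ iv K (ix K x.1), ∀ x2 ∈ iv K (ix K x.2.1), ¬ sst p.Lm U.1 K k x1 x2 →
      ∑ y ∈ iv k (ix k x2), u x1 y ⬝ᵥ u x1 y ≤ lam1 p s r * 2 ^ k)
    (fv : FibP p K x s r U v) (o : ℤ) {L : ℕ} {el : ι → ℤ} (hi : Function.Injective el)
    (hm : ∀ i, el i ∈ lbs L) (t0 : ℤ) :
    (∀ k < K, ∀ y ∈ iv K (cx K x).1, ∀ n' ∈ iv (K - (k + 1)) (cx K x).2.1, ∑ i ∈ iv K t0,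
      (if cP o i (k + 1) - ix (k + 1) y - n' ∈ iv (K - (k + 1)) (cx K x).2.2 then
        ∑ z ∈ iv (k + 1) (cP o i (k + 1) - ix (k + 1) y - n'), ∑ l ∈ lbs L,
          cu el ((√ez)⁻¹ • mC p U K v F2 i (k + 1) z y) l ^ 2 else 0) ≤
        2 ^ (k + 1) * (2 ^ K * (2 * p.e * lam1 p s r))) ∧
    ∀ k < K, ∀ y ∈ iv K (cx K x).1, ∀ n' ∈ iv (K - (k + 1)) (cx K x).2.1, ∑ i ∈ iv K t0,
      ∑ z ∈ iv (k + 1) n', ∑ l ∈ lbs L, cu el (cb p s r U K u F3 Q3 i (k + 1) y z) l ^ 2 ≤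
        2 ^ (k + 1) * (2 ^ K * (2 * p.e * lam1 p s r)) := by
  have he0 : 0 ≤ p.e := by linarith
  have e1 : (cx K x).1 = ix K x.1 := rfl
  have e2 : (cx K x).2.1 = ix K x.2.1 := rfl
  have e3 : (cx K x).2.2 = ix K x.2.2 := rfl
  rw [e1, e2, e3]
  constructor
  · intro k hk y hy n' _
    have h0 := row_mC (N := K) (T0 := t0) (S := ix K x.1) (T := ix K x.2.2) (p := p) (U := U)
      (F2 := F2) (v := v) (lam := lam1 p s r) q2 hez.le hl hK fv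
    have h1 := row_smul (N := K) (T0 := t0) (S := ix K x.1) (T := ix K x.2.2)
      (f := fun i k a z => mC p U K v F2 i k z a) (c := (√ez)⁻¹)
      (b := 2 * ez * lam1 p s r) h0
    have h2 := lab_tied (N := K) (T0 := t0) (S := ix K x.1) (T := ix K x.2.2)
      (f := fun i k a z => (√ez)⁻¹ • mC p U K v F2 i k z a)
      (b := (√ez)⁻¹ ^ 2 * (2 * ez * lam1 p s r)) (by positivity) hi hm h1
      (Subset.refl (iv K t0)) (c := cP o) (fun k i j h => cP_ix o h) k hk y hy n'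
    refine h2.trans ?_
    have h3 : (√ez)⁻¹ ^ 2 * (2 * ez * lam1 p s r) = 2 * lam1 p s r := by
      rw [inv_pow, Real.sq_sqrt hez.le]
      field_simp
    rw [h3]
    have h4 : 2 * lam1 p s r ≤ 2 * p.e * lam1 p s r := by nlinarith
    gcongr
  · exact rB_cb (N := K) (T0 := t0) (S := ix K x.1) (T := ix K x.2.1) (p := p) (s := s) (r := r)
      (U := U) (F3 := F3) (Q3 := Q3) (u := u) (lam := lam1 p s r) (X := iv K t0) q3 he0 hl hK
      fu hi hm (Subset.refl (iv K t0))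

end

end Vale.Agent.P141.H213
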