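import Vale.Agent.P141.PL.H855.StepDefs

/-!
# P141, line W, module S8 (StepB2 on one window), part 1: the expansion

Every slot is `G + X - s` (END value, static difference, births below the top); `a` is the role
slot.  The total of the four slots is at most the sum of 30 totals of five kinds.
-/

namespace Vale.Agent.P141.H213

open Finset Function
open Vale.Agent.P141.H315
open Vale.Agent.P141.PL.H855

noncomputable section

open scoped Classical

variable {X α : Type*} {g : Grid X} {nv : N4 g α} {ud : ℕ → X → Prop}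

/-- four slots, listed in the order `a, b, c, d` -/
def sel (a b c : Fin 4) (A B C D : ℕ → X → ℝ) : Fin 4 → ℕ → X → ℝ :=
  fun m => if m = a then A else if m = b then B else if m = c then C else D

theorem exists_others (a : Fin 4) : ∃ b c d : Fin 4, b ≠ a ∧ c ≠ a ∧ d ≠ a ∧ b ≠ c ∧ b ≠ d ∧
    c ≠ d ∧ ∀ m, m = a ∨ m = b ∨ m = c ∨ m = d := by
  revert a; decide

section four

set_option linter.unusedSectionVars false

variable {a b c d : Fin 4} (hba : b ≠ a) (hca : c ≠ a) (hda : d ≠ a) (hbc : b ≠ c) (hbd : b ≠ d)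
  (hcd : c ≠ d) (hall : ∀ m, m = a ∨ m = b ∨ m = c ∨ m = d)

include hba hca hda hbc hbd hcd

theorem sel_a (A B C D E : ℕ → X → ℝ) : update (sel a b c A B C D) a E = sel a b c E B C D := by
  funext m
  by_cases h : m = a
  · subst h; simp [sel]
  · rw [update_of_ne h]; simp [sel, h]

theorem sel_b (A B C D E : ℕ → X → ℝ) : update (sel a b c A B C D) b E = sel a b c A E C D := by
  funext m
  by_cases h : m = b
  · subst h; simp [sel, hba]
  · rw [update_of_ne h]; simp [sel, h]

theorem sel_c (A B C D E : ℕ → X → ℝ) : update (sel a b c A B C D) c E = sel a b c A B E D := by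
  funext m
  by_cases h : m = c
  · subst h; simp [sel, hca, hbc.symm]
  · rw [update_of_ne h]; simp [sel, h]

include hall

theorem sel_d (A B C D E : ℕ → X → ℝ) : update (sel a b c A B C D) d E = sel a b c A B C E := by
  funext m
  by_cases h : m = d
  · subst h; simp [sel, hda, hbd.symm, hcd.symm]
  · rw [update_of_ne h]
    rcases hall m with h1 | h1 | h1 | h1 <;> simp_all [sel]

theorem sel_fun (Y : Fin 4 → ℕ → X → ℝ) : sel a b c (Y a) (Y b) (Y c) (Y d) = Y := by
  funext m
  rcases hall m with h1 | h1 | h1 | h1 <;> subst h1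
  · simp [sel]
  · simp [sel, hba]
  · simp [sel, hca, hbc.symm]
  · simp [sel, hda, hbd.symm, hcd.symm]

end four

/-- **The expansion of one window.** -/
theorem win_exp (a : Fin 4) (G X' s : Fin 4 → ℕ → X → ℝ) {l0 l1 l2 l3 l4 : ℝ}
    (h00 : TR nv ud (update G a (G a + X' a)) ≤ l0)
    (h01 : ∀ b, b ≠ a → TR nv ud (update (update G a (G a + X' a)) b (X' b)) ≤ l0)
    (h10 : TR nv ud (update G a (s a)) ≤ l1)
    (h11 : ∀ b, b ≠ a → TR nv ud (update (update G a (G a + X' a)) b (s b)) ≤ l1)
    (h12 : ∀ b, b ≠ a → TR nv ud (update (update G a (s a)) b (X' b)) ≤ l1)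
    (h13 : ∀ b c, b ≠ a → c ≠ a → b ≠ c → TR nv ud (update (update G b (s b)) c (X' c)) ≤ l1)
    (h20 : ∀ b, b ≠ a → TR nv ud (update (update G a (s a)) b (s b)) ≤ l2)
    (h21 : ∀ b c, b ≠ a → c ≠ a → b ≠ c → TR nv ud (update (update G b (s b)) c (s c)) ≤ l2)
    (h30 : ∀ b c, b ≠ a → c ≠ a → b ≠ c → TR nv ud (update (update (update G a (X' a - s a)) b
      (X' b - s b)) c (X' c - s c)) ≤ l3)
    (h31 : TR nv ud (update (fun m => X' m - s m) a (G a + X' a - s a)) ≤ l3)
    (h40 : ∀ b c, b ≠ a → c ≠ a → b ≠ c → TR nv ud (update (update G b (X' b)) c (X' c)) ≤ l4) :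
    TR nv ud (fun m => G m + X' m - s m) ≤ 4 * l0 + 13 * l1 + 6 * l2 + 4 * l3 + 3 * l4 := by
  obtain ⟨b, c, d, hba, hca, hda, hbc, hbd, hcd, hall⟩ := exists_others a
  have eA := fun A B C D E => sel_a (X := X) hba hca hda hbc hbd hcd A B C D E
  have eB := fun A B C D E => sel_b (X := X) hba hca hda hbc hbd hcd A B C D E
  have eC := fun A B C D E => sel_c (X := X) hba hca hda hbc hbd hcd A B C D E
  have eD := fun A B C D E => sel_d (X := X) hba hca hda hbc hbd hcd hall A B C D E
  have eF := fun Y => sel_fun (X := X) hba hca hda hbc hbd hcd hall Y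
  set q : (ℕ → X → ℝ) → (ℕ → X → ℝ) → (ℕ → X → ℝ) → (ℕ → X → ℝ) → ℝ :=
    fun A B C D => TR nv ud (sel a b c A B C D) with hq
  -- additivity
  have aA : ∀ A A' B C D, q (A + A') B C D ≤ q A B C D + q A' B C D := by
    intro A A' B C D
    have := TR_add (nv := nv) (ud := ud) (sel a b c A B C D) a A A'
    simpa only [eA] using this
  have aB : ∀ A B B' C D, q A (B + B') C D ≤ q A B C D + q A B' C D := by
    intro A B B' C D
    have := TR_add (nv := nv) (ud := ud) (sel a b c A B C D) b B B'
    simpa only [eB] using this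
  have aC : ∀ A B C C' D, q A B (C + C') D ≤ q A B C D + q A B C' D := by
    intro A B C C' D
    have := TR_add (nv := nv) (ud := ud) (sel a b c A B C D) c C C'
    simpa only [eC] using this
  have aD : ∀ A B C D D', q A B C (D + D') ≤ q A B C D + q A B C D' := by
    intro A B C D D'
    have := TR_add (nv := nv) (ud := ud) (sel a b c A B C D) d D D'
    simpa only [eD] using this
  have sA : ∀ A A' B C D, q (A - A') B C D ≤ q A B C D + q A' B C D := by
    intro A A' B C D
    have := TR_sub (nv := nv) (ud := ud) (sel a b c A B C D) a A A'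
    simpa only [eA] using this
  have sB : ∀ A B B' C D, q A (B - B') C D ≤ q A B C D + q A B' C D := by
    intro A B B' C D
    have := TR_sub (nv := nv) (ud := ud) (sel a b c A B C D) b B B'
    simpa only [eB] using this
  have sC : ∀ A B C C' D, q A B (C - C') D ≤ q A B C D + q A B C' D := by
    intro A B C C' D
    have := TR_sub (nv := nv) (ud := ud) (sel a b c A B C D) c C C'
    simpa only [eC] using this
  have sD : ∀ A B C D D', q A B C (D - D') ≤ q A B C D + q A B C D' := by
    intro A B C D D'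
    have := TR_sub (nv := nv) (ud := ud) (sel a b c A B C D) d D D'
    simpa only [eD] using this
  -- the hypotheses in the notation `q`
  have uG : ∀ m E, TR nv ud (update G m E) = TR nv ud (update (sel a b c (G a) (G b) (G c) (G d)) m
    E) := fun m E => by rw [eF]
  have t00 : q (G a + X' a) (G b) (G c) (G d) ≤ l0 := by
    refine le_trans (le_of_eq ?_) h00
    rw [uG, eA]
  have e2 : ∀ m n E E', TR nv ud (update (update G m E) n E') =
      TR nv ud (update (update (sel a b c (G a) (G b) (G c) (G d)) m E) n E') :=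
    fun m n E E' => by rw [eF]
  have t01b : q (G a + X' a) (X' b) (G c) (G d) ≤ l0 := by
    have := h01 b hba; rwa [e2, eA, eB] at this
  have t01c : q (G a + X' a) (G b) (X' c) (G d) ≤ l0 := by
    have := h01 c hca; rwa [e2, eA, eC] at this
  have t01d : q (G a + X' a) (G b) (G c) (X' d) ≤ l0 := by
    have := h01 d hda; rwa [e2, eA, eD] at this
  have t10 : q (s a) (G b) (G c) (G d) ≤ l1 := by
    have := h10; rwa [uG, eA] at this
  have t11b : q (G a + X' a) (s b) (G c) (G d) ≤ l1 := by
    have := h11 b hba; rwa [e2, eA, eB] at this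
  have t11c : q (G a + X' a) (G b) (s c) (G d) ≤ l1 := by
    have := h11 c hca; rwa [e2, eA, eC] at this
  have t11d : q (G a + X' a) (G b) (G c) (s d) ≤ l1 := by
    have := h11 d hda; rwa [e2, eA, eD] at this
  have t12b : q (s a) (X' b) (G c) (G d) ≤ l1 := by
    have := h12 b hba; rwa [e2, eA, eB] at this
  have t12c : q (s a) (G b) (X' c) (G d) ≤ l1 := by
    have := h12 c hca; rwa [e2, eA, eC] at this
  have t12d : q (s a) (G b) (G c) (X' d) ≤ l1 := by
    have := h12 d hda; rwa [e2, eA, eD] at this
  have t13bc : q (G a) (s b) (X' c) (G d) ≤ l1 := by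
    have := h13 b c hba hca hbc; rwa [e2, eB, eC] at this
  have t13cb : q (G a) (X' b) (s c) (G d) ≤ l1 := by
    have := h13 c b hca hba hbc.symm; rwa [e2, eC, eB] at this
  have t13bd : q (G a) (s b) (G c) (X' d) ≤ l1 := by
    have := h13 b d hba hda hbd; rwa [e2, eB, eD] at this
  have t13db : q (G a) (X' b) (G c) (s d) ≤ l1 := by
    have := h13 d b hda hba hbd.symm; rwa [e2, eD, eB] at this
  have t13cd : q (G a) (G b) (s c) (X' d) ≤ l1 := by
    have := h13 c d hca hda hcd; rwa [e2, eC, eD] at this
  have t13dc : q (G a) (G b) (X' c) (s d) ≤ l1 := by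
    have := h13 d c hda hca hcd.symm; rwa [e2, eD, eC] at this
  have t20b : q (s a) (s b) (G c) (G d) ≤ l2 := by
    have := h20 b hba; rwa [e2, eA, eB] at this
  have t20c : q (s a) (G b) (s c) (G d) ≤ l2 := by
    have := h20 c hca; rwa [e2, eA, eC] at this
  have t20d : q (s a) (G b) (G c) (s d) ≤ l2 := by
    have := h20 d hda; rwa [e2, eA, eD] at this
  have t21bc : q (G a) (s b) (s c) (G d) ≤ l2 := by
    have := h21 b c hba hca hbc; rwa [e2, eB, eC] at this
  have t21bd : q (G a) (s b) (G c) (s d) ≤ l2 := by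
    have := h21 b d hba hda hbd; rwa [e2, eB, eD] at this
  have t21cd : q (G a) (G b) (s c) (s d) ≤ l2 := by
    have := h21 c d hca hda hcd; rwa [e2, eC, eD] at this
  have t40bc : q (G a) (X' b) (X' c) (G d) ≤ l4 := by
    have := h40 b c hba hca hbc; rwa [e2, eB, eC] at this
  have t40bd : q (G a) (X' b) (G c) (X' d) ≤ l4 := by
    have := h40 b d hba hda hbd; rwa [e2, eB, eD] at this
  have t40cd : q (G a) (G b) (X' c) (X' d) ≤ l4 := by
    have := h40 c d hca hda hcd; rwa [e2, eC, eD] at this
  have e3 : ∀ m n o E E' E'', TR nv ud (update (update (update G m E) n E') o E'') =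
      TR nv ud (update (update (update (sel a b c (G a) (G b) (G c) (G d)) m E) n E') o E'') :=
    fun m n o E E' E'' => by rw [eF]
  have t30bc : q (X' a - s a) (X' b - s b) (X' c - s c) (G d) ≤ l3 := by
    have := h30 b c hba hca hbc; rwa [e3, eA, eB, eC] at this
  have t30bd : q (X' a - s a) (X' b - s b) (G c) (X' d - s d) ≤ l3 := by
    have := h30 b d hba hda hbd; rwa [e3, eA, eB, eD] at this
  have t30cd : q (X' a - s a) (G b) (X' c - s c) (X' d - s d) ≤ l3 := by
    have := h30 c d hca hda hcd; rwa [e3, eA, eC, eD] at this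
  have t31 : q (G a + X' a - s a) (X' b - s b) (X' c - s c) (X' d - s d) ≤ l3 := by
    have h := h31
    rw [← eF (fun m => X' m - s m), eA] at h
    exact h
  -- the expansion
  have hV : TR nv ud (fun m => G m + X' m - s m) =
      q (G a + X' a - s a) (G b + (X' b - s b)) (G c + (X' c - s c)) (G d + (X' d - s d)) := by
    rw [← eF (fun m => G m + X' m - s m)]
    simp only [hq, add_sub_assoc]
  rw [hV]
  set Va := G a + X' a - s a with hVa
  have v1 := aB Va (G b) (X' b - s b) (G c + (X' c - s c)) (G d + (X' d - s d))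
  have v2 := aC Va (G b) (G c) (X' c - s c) (G d + (X' d - s d))
  have v3 := aC Va (X' b - s b) (G c) (X' c - s c) (G d + (X' d - s d))
  have v4 := aD Va (G b) (G c) (G d) (X' d - s d)
  have v5 := aD Va (G b) (X' c - s c) (G d) (X' d - s d)
  have v6 := aD Va (X' b - s b) (G c) (G d) (X' d - s d)
  have v7 := aD Va (X' b - s b) (X' c - s c) (G d) (X' d - s d)
  -- no small companion
  have w1 := sA (G a + X' a) (s a) (G b) (G c) (G d)
  -- one small companion
  have one : ∀ B C D, q Va B C D ≤ q (G a + X' a) B C D + q (s a) B C D :=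
    fun B C D => sA (G a + X' a) (s a) B C D
  have o1 := one (X' b - s b) (G c) (G d)
  have o1a := sB (G a + X' a) (X' b) (s b) (G c) (G d)
  have o1b := sB (s a) (X' b) (s b) (G c) (G d)
  have o2 := one (G b) (X' c - s c) (G d)
  have o2a := sC (G a + X' a) (G b) (X' c) (s c) (G d)
  have o2b := sC (s a) (G b) (X' c) (s c) (G d)
  have o3 := one (G b) (G c) (X' d - s d)
  have o3a := sD (G a + X' a) (G b) (G c) (X' d) (s d)
  have o3b := sD (s a) (G b) (G c) (X' d) (s d)
  -- two small companions
  have two : ∀ B C D, q Va B C D ≤ q (G a) B C D + q (X' a - s a) B C D := by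
    intro B C D
    have h1 := aA (G a) (X' a - s a) B C D
    rwa [← add_sub_assoc, ← hVa] at h1
  have p1 := two (X' b - s b) (X' c - s c) (G d)
  have p1a := sB (G a) (X' b) (s b) (X' c - s c) (G d)
  have p1b := sC (G a) (X' b) (X' c) (s c) (G d)
  have p1c := sC (G a) (s b) (X' c) (s c) (G d)
  have p2 := two (X' b - s b) (G c) (X' d - s d)
  have p2a := sB (G a) (X' b) (s b) (G c) (X' d - s d)
  have p2b := sD (G a) (X' b) (G c) (X' d) (s d)
  have p2c := sD (G a) (s b) (G c) (X' d) (s d)
  have p3 := two (G b) (X' c - s c) (X' d - s d)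
  have p3a := sC (G a) (G b) (X' c) (s c) (X' d - s d)
  have p3b := sD (G a) (G b) (X' c) (X' d) (s d)
  have p3c := sD (G a) (G b) (s c) (X' d) (s d)
  linarith

end

end Vale.Agent.P141.H213
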