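import Vale.Agent.P141.H213.WinStep0
import Vale.Agent.P141.H748.MbbW

/-!
# P141, line W, module S8 (StepB2 on one window), part 3: the terms with three small slots

`win_step`: `win_step0` on the model, where the terms with at least three small slots are bounded by
the black box (`H748.mbbW`); the sizes of the slots on the region are the numbers `Sθ, SU, SV`.
-/

namespace Vale.Agent.P141.H213

open Finset Function
open Vale.Agent.P141.PL.H571 (W)
open Vale.Agent.P141.PL.H95 (gr card_gr)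
open Vale.Agent.P141.H315 Vale.Agent.P141.PL.H318 Vale.Agent.P141.H347 Vale.Agent.P141.H297
open Vale.Agent.P141.H8 (Rgn En st T4)
open Vale.Agent.P141.PL.H855
open Vale.Agent.P141.H748 (cut mbbW)

noncomputable section

open scoped Classical

theorem cd_gr7 (s : ℤ) (k : ℕ) (x : ℤ) : cd (gr 7 s) k x = 2 ^ k * 128 := by
  unfold cd
  rw [card_gr]
  push_cast
  rw [pow_add]
  norm_num

theorem prod_four {a b c d : Fin 4} (hba : b ≠ a) (hca : c ≠ a) (hda : d ≠ a) (hbc : b ≠ c)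
    (hbd : b ≠ d) (hcd : c ≠ d) (hall : ∀ m, m = a ∨ m = b ∨ m = c ∨ m = d) (S : Fin 4 → ℝ) :
    ∏ j, S j = S a * S b * S c * S d := by
  have h : (univ : Finset (Fin 4)) = {a, b, c, d} := by
    ext m
    simp only [mem_univ, mem_insert, mem_singleton, true_iff]
    exact hall m
  rw [h, prod_insert (by simp [hba.symm, hca.symm, hda.symm]),
    prod_insert (by simp [hbc, hbd]), prod_insert (by simp [hcd]), prod_singleton]
  ring

theorem exists_fourth {a b c : Fin 4} (hba : b ≠ a) (hca : c ≠ a) (hbc : b ≠ c) :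
    ∃ d : Fin 4, d ≠ a ∧ b ≠ d ∧ c ≠ d ∧ ∀ m, m = a ∨ m = b ∨ m = c ∨ m = d := by
  revert a b c; decide

section

set_option linter.unusedSectionVars false

variable {s : ℤ} {ι : Type*} {J : Type*} [Fintype J] {S : J → CSys (gr 7 s) ι}
  {w : ∀ j, LW (S j)} {L : ℕ} {e : ℝ} {F : J → ℤ → ℝ} {gd : ℕ → ℤ → Prop}
  {V H : J → ℕ → ℤ → ℝ} {rs : J → ℕ → ℤ → Prop} {lm : J → ℕ → ℤ → ℝ} {e0 C2 : ℝ}
  {a : Fin 4} {cj : Fin 4 → J} {jo jn : J} {Λ : ℕ} {ud : ℕ → ℤ → Prop}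

/-- the size of the role slot -/
theorem cslot_rol {φ : J → ℕ → ℤ → ℝ} {Sz : ℝ} (h : ∀ j, CSlot0 s Λ (cut ud (φ j)) Sz) :
    CSlot0 s Λ (cut ud (rol a cj jo jn φ a)) (2 * Sz) := by
  rw [rol_self]
  refine (((h jo).sub (h jn)).congr fun k _ y => ?_).mono (le_of_eq (by ring))
  unfold cut
  split_ifs <;> simp

theorem cslot_rol_ne {φ : J → ℕ → ℤ → ℝ} {Sz : ℝ} (h : ∀ j, CSlot0 s Λ (cut ud (φ j)) Sz)
    {m : Fin 4} (hm : m ≠ a) : CSlot0 s Λ (cut ud (rol a cj jo jn φ m)) Sz := by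
  rw [rol_of_ne hm]; exact h _

/-- **ONE WINDOW OF THE STEP.** -/
theorem win_step : ∃ C : ℝ, 0 ≤ C ∧ ∀ (n : ℕ) (P : ℝ), 0 ≤ P → Root2 n P →
    ∀ (s : ℤ) {o : ℤ} (ho : o = 1 ∨ o = -1) (nd : Finset (ℕ × ℤ)) (le : ℕ × ℤ → ℤ)
      (hsub : ∀ N ∈ nd, W N.1 N.2 ⊆ (gr 7 s).cube N.1 (le N)), (∀ N ∈ nd, 1 ≤ N.1) →
    ∀ {ι J : Type*} [Fintype J] {S : J → CSys (gr 7 s) ι} {w : ∀ j, LW (S j)} {L : ℕ} {e : ℝ}
      {F : J → ℤ → ℝ} {gd : ℕ → ℤ → Prop} {V H : J → ℕ → ℤ → ℝ} {rs : J → ℕ → ℤ → Prop}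
      {lm : J → ℕ → ℤ → ℝ} {e0 C2 Cg B : ℝ} {a : Fin 4} {cj : Fin 4 → J} {jo jn : J} {Λ : ℕ} {z : ℤ}
      {ud : ℕ → ℤ → Prop} {ez p l2 l4 Sθ SU SV : ℝ},
    Paths w L e F gd V H rs lm → (∀ j, Mix (S j) Cg) → 0 ≤ Cg →
    (∀ k x, cd (gr 7 s) (k + 1) x ≤ B * cd (gr 7 s) k x) → 0 < e0 → e0 ≤ e → 0 ≤ C2 →
    F jo = F jn → Λ ≤ L → Λ ≤ n → Rgn (gr 7 s) gd Λ z ud → ud Λ z →
    (∀ k y, ud k y → tp w L gd V H rs e0 C2 k y = Λ) → 0 ≤ p →
    4 * ((16 + 4 * (B * C2 + 3) + 2 * (1 + 2 * Cg)) * e) ≤ ez →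
    PayU (n4T s ho nd le hsub) ud w L a cj jo jn
      (rol a cj jo jn fun j => Ue w L gd V H rs e0 C2 j Λ) ez p →
    (∀ m n' j j', m ≠ n' → Sl a cj jo jn m j → Sl a cj jo jn n' j' →
      TR (n4T s ho nd le hsub) ud (update (update
        (rol a cj jo jn fun j => st (Ue w L gd V H rs e0 C2 j Λ)) m
        (fun k u => V j Λ u - V j k u)) n' (fun k u => V j' Λ u - V j' k u)) ≤
        l2 * cd (gr 7 s) Λ z) →
    (∀ j, CSlot0 s Λ (cut ud fun k => V j k - Ue w L gd V H rs e0 C2 j Λ) Sθ) →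
    (∀ j, CSlot0 s Λ (cut ud (st (Ue w L gd V H rs e0 C2 j Λ))) SU) →
    (∀ j, CSlot0 s Λ (cut ud (V j)) SV) →
    (∀ b c, b ≠ a → c ≠ a → b ≠ c → TR (n4T s ho nd le hsub) ud (update (update
      (rol a cj jo jn fun j => st (Ue w L gd V H rs e0 C2 j Λ))
      b (st (V (cj b) Λ - Ue w L gd V H rs e0 C2 (cj b) Λ)))
      c (st (V (cj c) Λ - Ue w L gd V H rs e0 C2 (cj c) Λ))) ≤ l4 * cd (gr 7 s) Λ z) →
    TR (n4T s ho nd le hsub) ud (rol a cj jo jn V) ≤
      (128 * e * p + 26 * (p * e0) + 12 * l2 + C * P * (Sθ ^ 3 * (SU + SV)) + 3 * l4) *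
        cd (gr 7 s) Λ z := by
  obtain ⟨C, hC, h⟩ := mbbW
  refine ⟨C, hC, ?_⟩
  intro n P hP hroot s o ho nd le hsub h1 ι J _ S w L e F gd V H rs lm e0 C2 Cg B a cj jo jn Λ z ud
    ez p l2 l4 Sθ SU SV hPa hM hCg hB he0 hee hC2 hF hΛ hΛn hR hz hw hp hez hpay h2 hθ hU hV h4
  have hCP : 0 ≤ C * P := mul_nonneg hC hP
  have hSθ := (hθ jo).nonneg
  have hSU := (hU jo).nonneg
  have hSV := (hV jo).nonneg
  have key := win_step0 (n4T s ho nd le hsub) hPa hM hCg hB he0 hee hC2 hF hΛ hR hz hw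
    (l2 := l2) (l3 := C * P * (Sθ ^ 3 * (SU + SV)) / 4) (l4 := l4) hp hez hpay h2 ?_ ?_ h4
  · refine key.trans (le_of_eq ?_)
    ring
  · -- three small slots
    intro b c hb hc hbc
    obtain ⟨d, hd, hbd, hcd', hall⟩ := exists_fourth hb hc hbc
    have h3 := h n P hP hroot s ho nd le hsub h1 Λ z gd ud hΛn hR
      (update (update (update (rol a cj jo jn fun j => st (Ue w L gd V H rs e0 C2 j Λ))
        a (rol a cj jo jn (fun j k => V j k - Ue w L gd V H rs e0 C2 j Λ) a))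
        b (rol a cj jo jn (fun j k => V j k - Ue w L gd V H rs e0 C2 j Λ) b))
        c (rol a cj jo jn (fun j k => V j k - Ue w L gd V H rs e0 C2 j Λ) c))
      (fun m => if m = a then 2 * Sθ else if m = b then Sθ else if m = c then Sθ else SU)
      (fun m => by
        rcases hall m with rfl | rfl | rfl | rfl
        · rw [update_of_ne hc.symm, update_of_ne hb.symm, update_self, if_pos rfl]
          exact cslot_rol hθ
        · rw [update_of_ne hbc, update_self, if_neg hb, if_pos rfl]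
          exact cslot_rol_ne hθ hb
        · rw [update_self, if_neg hc, if_neg hbc.symm, if_pos rfl]
          exact cslot_rol_ne hθ hc
        · rw [update_of_ne hcd'.symm, update_of_ne hbd.symm, update_of_ne hd, if_neg hd,
            if_neg hbd.symm, if_neg hcd'.symm]
          exact cslot_rol_ne hU hd)
    rw [prod_four hb hc hd hbc hbd hcd' hall] at h3
    simp only [if_neg hb, if_neg hc, if_neg hd, if_neg hbc.symm, if_neg hbd.symm,
      if_neg hcd'.symm, if_true] at h3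
    refine h3.trans ?_
    rw [cd_gr7]
    have h5 : 0 ≤ C * P * (Sθ ^ 3 * SV) * 2 ^ Λ := by positivity
    have h6 : 0 ≤ C * P * (Sθ ^ 3 * SU) * 2 ^ Λ := by positivity
    nlinarith
  · -- the three companions small
    obtain ⟨b, c, d, hb, hc, hd, hbc, hbd, hcd', hall⟩ := exists_others a
    have h3 := h n P hP hroot s ho nd le hsub h1 Λ z gd ud hΛn hR
      (update (rol a cj jo jn fun j k => V j k - Ue w L gd V H rs e0 C2 j Λ) a
        (rol a cj jo jn V a))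
      (fun m => if m = a then 2 * SV else Sθ)
      (fun m => by
        by_cases hm : m = a
        · subst hm
          rw [update_self, if_pos rfl]
          exact cslot_rol hV
        · rw [update_of_ne hm, if_neg hm]
          exact cslot_rol_ne hθ hm)
    rw [prod_four hb hc hd hbc hbd hcd' hall] at h3
    simp only [if_neg hb, if_neg hc, if_neg hd, if_true] at h3
    refine h3.trans ?_
    rw [cd_gr7]
    have h5 : 0 ≤ C * P * (Sθ ^ 3 * SV) * 2 ^ Λ := by positivity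
    have h6 : 0 ≤ C * P * (Sθ ^ 3 * SU) * 2 ^ Λ := by positivity
    nlinarith

end

end

end Vale.Agent.P141.H213
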