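import Vale.Agent.P141.H213.WinPay
import Vale.Agent.P141.H213.WinStep
import Vale.Agent.P141.H297.MbbJ
import Vale.Agent.P141.H501.L4
import Vale.Agent.P141.H379.WinT

/-!
# P141, line W, module S8 (StepB2 on one window), part 5: one window, one number

`win_final`: the total of the nodes of one joint window of one step, one role, from the static
payments (H1), (H2), (H3), the comparability (H5) of the levels and the END estimate (H4).
-/

namespace Vale.Agent.P141.H213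

open Finset Function
open Vale.Agent.P141.H315 (Grid dot)
open Vale.Agent.P141.PL.H315 (le)
open Vale.Agent.P141.PL.H571 (W)
open Vale.Agent.P141.PL.H318 (CSys)
open Vale.Agent.P141.PL.H95 (gr shf rst)
open Vale.Agent.P141.PL.H855 (N4 TR n4T L2W EndStm T4_toNV cd_gr_succ)
open Vale.Agent.P141.H347 (LW cd Dat2 Root2)
open Vale.Agent.P141.H782 (gb used used_congr LSys frN)
open Vale.Agent.P141.H8 (Rgn Lab Wr En Un st T4 K1 MM ee)
open Vale.Agent.P141.H297 (Paths Mix tp Ue Kd kval sq KS mbbJ)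
open Vale.Agent.P141.H610 (BoxHyp)
open Vale.Agent.P141.H379 (JP SJ wJ FJ VJ HJ rJ mJ tpJ rlJ nvF paths_step rlJ_upd rgn_J wr_top
  box_nvF card_JP)
open Vale.Agent.P141.H501 (numL4 l4_win)

noncomputable section

open scoped Classical

/-- the END value of a path on the window with the top scale `Λ` -/
abbrev UJ {n : ℕ} {ι : Type} (𝒮 : LSys n ι) (K : ℕ) (V : ℤ) (f : Fin 4 → ℤ → ℝ) (j : ℕ) (b : Bool)
    (e0 C2 : ℝ) (Λ : ℕ) (c : JP) : ℤ → ℝ :=
  Ue (wJ 𝒮 j b) K (used n K V f b) (VJ 𝒮 K V f j b) (HJ 𝒮 K V f j b) (rJ 𝒮 K V f j b) e0 C2 c Λ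

/-- the joint window with the top `(Λ, z)` -/
abbrev WJ {n : ℕ} {ι : Type} (𝒮 : LSys n ι) (K : ℕ) (V : ℤ) (f : Fin 4 → ℤ → ℝ) (j : ℕ) (b : Bool)
    (e0 C2 : ℝ) (Λ : ℕ) (z : ℤ) : ℕ → ℤ → Prop :=
  Wr (gb n b) (used n K V f b) (tpJ 𝒮 K V f j b e0 C2) Λ z

theorem exists_perm4 {a b c d : Fin 4} (hba : b ≠ a) (hca : c ≠ a) (hda : d ≠ a) (hbc : b ≠ c)
    (hbd : b ≠ d) (hcd : c ≠ d) (hall : ∀ m, m = a ∨ m = b ∨ m = c ∨ m = d) :
    ∃ σ : Equiv.Perm (Fin 4), σ a = 0 ∧ σ d = 1 ∧ σ b = 2 ∧ σ c = 3 := by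
  set f : Fin 4 → Fin 4 := fun m => if m = a then 0 else if m = d then 1 else if m = b then 2 else 3
    with hf
  have fa : f a = 0 := by simp [hf]
  have fd : f d = 1 := by simp [hf, hda]
  have fb : f b = 2 := by simp [hf, hba, hbd]
  have fc : f c = 3 := by simp [hf, hca, hcd, hbc.symm]
  have hinj : Function.Injective f := by
    intro x y hxy
    rcases hall x with rfl | rfl | rfl | rfl <;> rcases hall y with rfl | rfl | rfl | rfl <;>
      first | rfl | (exfalso; simp_all)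
  refine ⟨Equiv.ofBijective f (Finite.injective_iff_bijective.1 hinj), fa, fd, fb, fc⟩

/-- **One window: the terms with three small slots are bounded by the black box.** -/
theorem win_l4 : ∃ C : ℝ, 0 ≤ C ∧ ∀ (n : ℕ) (P : ℝ), 0 ≤ P → Root2 n P →
    ∀ (ι : Type) (𝒮 : LSys n ι) (f : Fin 4 → ℤ → ℝ) (o : ℤ) (K : ℕ) (V : ℤ)
      (𝒩 : Finset (ℕ × ℤ)) (hd : Dat2 n f o K V 𝒩) (j : ℕ) (b : Bool) (𝒞 : Finset (ℕ × ℤ))
      (Cg : ℝ), (∀ c, Mix (SJ 𝒮 j b c) Cg) → 0 ≤ Cg →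
    ∀ (C2 e0 : ℝ), 32 * (1 + 2 * Cg) ≤ C2 → 0 < e0 → e0 ≤ 1 →
    ∀ (Λ : ℕ) (z : ℤ), Λ ≤ K → used n K V f b Λ z → tpJ 𝒮 K V f j b e0 C2 Λ z = Λ →
    ∀ (Kb θ : ℝ), 1 ≤ Kb → (∀ c, L2W (wJ 𝒮 j b c) Kb) → 0 < θ → θ ≤ 1 →
    ∀ {κ : Type} (UA : Fin 4 → CSys (gb n b) κ) (C5 CU EU c l4 : ℝ), 0 ≤ c → 2 * C5 ≤ CU → 0 ≤ C5 →
    16 * (16 + 4 * (2 * C2 + 3) + 2 * (1 + 2 * Cg)) ≤ EU →
    (∀ β m ud F', (∀ k y, ud k y → used n K V f b k y) → Un (SJ 𝒮 j b (β, m)) Cg ud F' →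
      Un (UA m) C5 ud F') →
    (∀ β, PL.H855.PayU (nvF hd b 𝒞) (used n K V f b) K (fun m => wJ 𝒮 j b (β, m)) UA UA CU CU
      EU EU EU c) →
    ∀ i : Fin 4, (∀ σ : Equiv.Perm (Fin 4), σ i = 0 → ∀ c1 c2 c3 : JP,
      T4 ((nvF hd b 𝒞).toNV σ) (WJ 𝒮 K V f j b e0 C2 Λ z)
        (st (UJ 𝒮 K V f j b e0 C2 Λ (false, i) - UJ 𝒮 K V f j b e0 C2 Λ (true, i)))
        (st (UJ 𝒮 K V f j b e0 C2 Λ (c1.1, σ.symm 1)))
        (st (VJ 𝒮 K V f j b c2 Λ - UJ 𝒮 K V f j b e0 C2 Λ c2))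
        (st (VJ 𝒮 K V f j b c3 Λ - UJ 𝒮 K V f j b e0 C2 Λ c3)) ≤ l4 * cd (gb n b) Λ z) →
    TR (nvF hd b 𝒞) (WJ 𝒮 K V f j b e0 C2 Λ z) (rlJ 𝒮 K V f j b i) ≤
      (616 * (c * √EU) + 48 * (c * √(8 * (2 * C2 + 3)) * (316 * e0) * √e0) +
        4 * (C * P * (16 * KS C2 Cg 8 4 θ ^ 4 * (Kb ^ θ) ^ 4) * √e0 ^ 3) + 3 * l4) *
        cd (gb n b) Λ z := by
  obtain ⟨C, hC, hmbb⟩ := mbbJ
  refine ⟨C, hC, ?_⟩
  intro n P hP hroot ι 𝒮 f o K V 𝒩 hd j b 𝒞 Cg hM hCg C2 e0 hC2 he0 he1 Λ z hΛ hu ht Kb θ hKb hS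
    hθ0 hθ1 κ UA C5 CU EU c l4 hc hC5 hC50 hEU hU5 hpay i h4
  set ud := WJ 𝒮 K V f j b e0 C2 Λ z with hud
  have hR : Rgn (gb n b) (used n K V f b) Λ z ud := rgn_J 𝒮 K V f j b e0 C2 hΛ z
  have hz : ud Λ z := wr_top hu ht
  have hw : ∀ k y, ud k y → tp (wJ 𝒮 j b) K (used n K V f b) (VJ 𝒮 K V f j b) (HJ 𝒮 K V f j b)
      (rJ 𝒮 K V f j b) e0 C2 k y = Λ := fun k y h => h.2.2.2
  have mb := hmbb n P hP hroot ι 𝒮 f o K V 𝒩 hd j b 𝒞 Cg hM hCg C2 e0 hC2 he0 he1 Λ Λ z z hΛ le_rfl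
    ud (rgn_self hR) Kb θ hKb hS hθ0 hθ1
  rw [rlJ_upd]
  show TR (nvF hd b 𝒞) ud (rol i (fun m => (decide (m < i), m)) (false, i) (true, i)
    (VJ 𝒮 K V f j b)) ≤ _
  refine (win_pay (nvF hd b 𝒞) (paths_step 𝒮 K V f j b) hM hCg (cd_gr_succ (shf (n + 7) b)) he0
    (by linarith) hC2 (a := i) (cb := fun m => decide (m < i)) rfl hΛ hR hz hw (UA := UA)
    (l3 := C * P * (16 * KS C2 Cg 8 4 θ ^ 4 * (Kb ^ θ) ^ 4) * √e0 ^ 3) (l4 := l4) hc
    (fun β m F' h => hU5 β m ud F' hR.sub h) hC5 hC50 (by linarith) hpay ?_ ?_ ?_).trans ?_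
  · -- three small slots
    intro b' c' hb hc' hbc
    obtain ⟨d, hd', hbd, hcd', hall⟩ := exists_fourth hb hc' hbc
    refine (mb _ (fun m => if m = d then Kd.U else Kd.Th)
      (fun m => if m = i then (false, i) else (decide (m < i), m)) (fun _ => (true, i))
      (fun m => if m = i then 2 else 1) fun m => ?_).trans (le_of_eq ?_)
    · rcases hall m with rfl | rfl | rfl | rfl
      · right
        refine ⟨?_, if_pos rfl⟩
        rw [update_of_ne hc'.symm, update_of_ne hb.symm, update_self, rol_self]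
        simp only [if_neg hd'.symm, if_pos]
        rfl
      · left
        refine ⟨?_, if_neg hb⟩
        rw [update_of_ne hbc, update_self, rol_of_ne hb]
        simp only [if_neg hbd, if_neg hb]
        rfl
      · left
        refine ⟨?_, if_neg hc'⟩
        rw [update_self, rol_of_ne hc']
        simp only [if_neg hcd', if_neg hc']
        rfl
      · left
        refine ⟨?_, if_neg hd'⟩
        rw [update_of_ne hcd'.symm, update_of_ne hbd.symm, update_of_ne hd', rol_of_ne hd']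
        simp only [if_pos, if_neg hd']
        rfl
    · rw [prod_four hb hc' hd' hbc hbd hcd' hall]
      simp only [if_neg hd'.symm, if_neg hbd, if_neg hcd', if_true, Vale.Agent.P141.H297.sq]
      ring
  · -- the three companions small
    obtain ⟨b', c', d, hb, hc', hd', hbc, hbd, hcd', hall⟩ := exists_others i
    refine (mb _ (fun m => if m = i then Kd.P else Kd.Th)
      (fun m => if m = i then (false, i) else (decide (m < i), m)) (fun _ => (true, i))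
      (fun m => if m = i then 2 else 1) fun m => ?_).trans (le_of_eq ?_)
    · by_cases hm : m = i
      · right
        refine ⟨?_, if_pos hm⟩
        subst hm
        rw [update_self, rol_self]
        simp only [if_pos]
        rfl
      · left
        refine ⟨?_, if_neg hm⟩
        rw [update_of_ne hm, rol_of_ne hm]
        simp only [if_neg hm]
        rfl
    · rw [prod_four hb hc' hd' hbc hbd hcd' hall]
      simp only [if_neg hb, if_neg hc', if_neg hd', if_true, Vale.Agent.P141.H297.sq]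
      ring
  · -- the recursion
    intro b' c' hb hc' hbc
    obtain ⟨d, hd', hbd, hcd', hall⟩ := exists_fourth hb hc' hbc
    obtain ⟨σ, s0, s1, s2, s3⟩ := exists_perm4 hb hc' hd' hbc hbd hcd' hall
    have e1 : σ.symm 1 = d := by rw [← s1, Equiv.symm_apply_apply]
    have h5 := h4 σ s0 (decide (d < i), d) (decide (b' < i), b') (decide (c' < i), c')
    rw [T4_toNV, e1] at h5
    refine le_trans (le_of_eq ?_) h5
    congr 1
    funext m
    rcases hall m with rfl | rfl | rfl | rfl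
    · rw [s0, update_of_ne hc'.symm, update_of_ne hb.symm, rol_self]
      rfl
    · rw [s2, update_of_ne hbc, update_self]
      rfl
    · rw [s3, update_self]
      rfl
    · rw [s1, update_of_ne hcd'.symm, update_of_ne hbd.symm, rol_of_ne hd']
      rfl
  · refine mul_le_mul_of_nonneg_right (le_of_eq ?_) (H347.cd_pos _ _ _).le
    ring

end

end Vale.Agent.P141.H213
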