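import Vale.Agent.P141.H213.WinFin

/-!
# P141, line W, module S8 (StepB2 on one window), part 6: from the inputs of one level to `WinHyp`

`StepIn`: what is needed for one level `j`, one datum, one class: static payments (H1), (H2), (H3),
the comparability of the levels (H5), the END estimate (H4).
`numW`: the number of one window.
`winHyp_of_stepIn`: `H379.WinHyp` from `StepIn` at every level and one inequality between numbers.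
-/

namespace Vale.Agent.P141.H213

open Finset Function
open Vale.Agent.P141.H315 (Grid dot)
open Vale.Agent.P141.PL.H315 (le)
open Vale.Agent.P141.PL.H318 (CSys)
open Vale.Agent.P141.PL.H95 (gr shf rst)
open Vale.Agent.P141.PL.H855 (N4 TR n4T L2W EndStm EndIn T4_toNV cd_gr_succ PayU.sub)
open Vale.Agent.P141.H347 (LW cd Dat2 Root2)
open Vale.Agent.P141.H782 (gb used used_congr LSys LSys.S LSys.w frN)
open Vale.Agent.P141.H8 (Rgn Lab Wr En Un st T4 K1 MM ee)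
open Vale.Agent.P141.H297 (Paths Mix tp Ue Kd kval KS mbbJ Ue_energy Ue_unif)
open Vale.Agent.P141.H610 (BoxHyp)
open Vale.Agent.P141.H379 (JP SJ wJ FJ VJ HJ rJ mJ tpJ rlJ nvF paths_step rlJ_upd rgn_J wr_top
  box_nvF card_JP mix_J l2w_J WinHyp)
open Vale.Agent.P141.H501 (numL4 l4_win)
open Vale.Agent.P141.H444 (TSys TDat TDat.sys GenL)
open Vale.Agent.P141.H922 (CgP)

noncomputable section

open scoped Classical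

theorem l2w_mono {X ι : Type*} {g : Grid X} {S : CSys g ι} {w : LW S} {A B : ℝ} (h : L2W w A)
    (h0 : 0 ≤ A) (hAB : A ≤ B) : L2W w B := by
  intro j k x i hk
  refine (h j k x i hk).trans (mul_le_mul_of_nonneg_right ?_ (H347.cd_pos g k x).le)
  have hω := w.nonneg j k x i
  exact pow_le_pow_left₀ (mul_nonneg h0 hω) (mul_le_mul_of_nonneg_right hAB hω) 2

/-- the END estimate on a smaller region of used cells -/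
theorem endStm_sub {X ι κ α : Type*} {g : Grid X} {nv : N4 g α} {gd gd' : ℕ → X → Prop} {L : ℕ}
    {S S' : Fin 4 → CSys g ι} {w : ∀ m, LW (S m)} {w' : ∀ m, LW (S' m)} {U : Fin 4 → CSys g κ}
    {M C e0 e K c : ℝ} (h : EndStm nv gd L w w' U M C e0 e K c) (hg : ∀ k y, gd' k y → gd k y) :
    EndStm nv gd' L w w' U M C e0 e K c := fun σ Λ x ud hL hR hx P G1 hin t F hF =>
  h σ Λ x ud hL ⟨hR.const, hR.up, hR.bel, fun k y hy => hg k y (hR.sub k y hy)⟩ hx P G1 hin t F hF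

/-- **The inputs of one level**, one datum, one class of cells. -/
structure StepIn {n : ℕ} {ι : Type} (𝒮 : LSys n ι) {f : Fin 4 → ℤ → ℝ} {o : ℤ} {K : ℕ} {V : ℤ}
    {𝒩 : Finset (ℕ × ℤ)} (hd : Dat2 n f o K V 𝒩) (j : ℕ) (b : Bool) {κ ι' : Type}
    (UA : Fin 4 → CSys (gb n b) κ) (R : ℕ → Fin 4 → CSys (gb n b) ι') (wR : ∀ i m, LW (R i m))
    (Cg C1 CR e0 E τ c1 Pm Q1 cE : ℝ) (nr : ℕ) : Prop where
  /-- (H5) a uniform function of the levels `j`, `j + 1` is uniform for `UA` -/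
  cmp : ∃ C5 : ℝ, 0 ≤ C5 ∧ 2 * C5 ≤ C1 ∧ ∀ β m ud F', (∀ k y, ud k y → used n K V f b k y) →
    Un (SJ 𝒮 j b (β, m)) Cg ud F' → Un (UA m) C5 ud F'
  /-- (H1) payers of the levels `j`, `j + 1`, two companions uniform for the level `j` -/
  pay1 : ∀ β, PL.H855.PayU (nvF hd b ∅) (used n K V f b) K (fun m => wJ 𝒮 j b (β, m)) UA UA
    C1 C1 C1 C1 C1 c1
  mix : ∀ i < nr, ∀ m, Mix (R i m) CR
  /-- (H2) payers of the rounds -/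
  pay2 : ∃ c2 : ℕ → ℝ, (∀ i < nr, 0 ≤ c2 i) ∧
    (∀ i < nr, ∀ L', PL.H855.PayU (nvF hd b ∅) (used n K V f b) L' (wR i) UA UA C1 C1 C1 C1
      (K1 2 CR * ee 2 CR τ E i) (c2 i)) ∧
    ∀ i < nr, c2 i * √(K1 2 CR * ee 2 CR τ E i) ≤ Pm
  /-- (H3) payers of the levels `j`, `j + 1`, one companion uniform for the round -/
  pay3 : ∃ c3 : ℕ → ℝ, (∀ i < nr, 0 ≤ c3 i) ∧
    (∀ i < nr, ∀ β, PL.H855.PayU (nvF hd b ∅) (used n K V f b) K (fun m => wJ 𝒮 j b (β, m)) UA (R i)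
      C1 CR C1 (K1 2 CR * ee 2 CR τ E i) (K1 2 CR * ee 2 CR τ E i) (c3 i)) ∧
    ∀ i < nr, c3 i * √(K1 2 CR * ee 2 CR τ E i) * (32 * 4 + 2 * e0) ≤ Q1 * ee 2 CR τ E i
  /-- (H4) END -/
  endS : ∀ Kp : ℝ, 1 ≤ Kp → E * (K1 2 CR * τ) ^ nr * Kp ≤ E * (K1 2 CR * MM 2) ^ nr →
    EndStm (nvF hd b ∅) (used n K V f b) K (fun m => wJ 𝒮 j b (false, m))
      (fun m => wJ 𝒮 j b (true, m)) UA (16 * 4 + e0) C1 e0 (E * (K1 2 CR * τ) ^ nr) Kp cE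

/-- the number of one window -/
def numW (Cb P θ Kb C2 Cg C1 CR e0 E τ c1 Pm Q1 cE : ℝ) (nr : ℕ) : ℝ :=
  616 * (c1 * √C1) + 48 * (c1 * √(8 * (2 * C2 + 3)) * (316 * e0) * √e0) +
    4 * (Cb * P * (16 * KS C2 Cg 8 4 θ ^ 4 * (Kb ^ θ) ^ 4) * √e0 ^ 3) +
    3 * numL4 C2 Cg C1 CR e0 E τ (Cb * P) Pm Q1 cE nr

theorem numL4_mono {C2 Cm C1 Cg e0 E τ CP CP' Pm Q1 cE : ℝ} {n : ℕ} (h : CP ≤ CP')
    (hC : 0 ≤ Cg) (hτ : 0 < τ) (hE : 0 ≤ E) :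
    numL4 C2 Cm C1 Cg e0 E τ CP Pm Q1 cE n ≤ numL4 C2 Cm C1 Cg e0 E τ CP' Pm Q1 cE n := by
  unfold numL4
  have h1 : 0 ≤ K1 2 Cg := by unfold K1; positivity
  have h2 : 0 ≤ MM 2 := by unfold MM; positivity
  have h3 : 0 ≤ H501.szX C2 Cm e0 := by unfold H501.szX; positivity
  gcongr

/-- **One window from the inputs of the level.** -/
theorem win_final : ∃ Cb : ℝ, 0 ≤ Cb ∧ ∀ (n : ℕ) (P : ℝ), 0 ≤ P → Root2 n P →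
    ∀ (ι : Type) (𝒮 : LSys n ι) (f : Fin 4 → ℤ → ℝ) (o : ℤ) (K : ℕ) (V : ℤ)
      (𝒩 : Finset (ℕ × ℤ)) (hd : Dat2 n f o K V 𝒩) (j : ℕ) (b : Bool)
      (Cg : ℝ), (∀ c, Mix (SJ 𝒮 j b c) Cg) → 0 ≤ Cg →
    ∀ (C2 e0 : ℝ), 32 * (1 + 2 * Cg) ≤ C2 → 0 < e0 → e0 ≤ 1 →
    ∀ (Kb θ : ℝ), 1 ≤ Kb → (∀ c, L2W (wJ 𝒮 j b c) Kb) → 0 < θ → θ ≤ 1 →
    ∀ {κ ι' : Type} (UA : Fin 4 → CSys (gb n b) κ) (R : ℕ → Fin 4 → CSys (gb n b) ι')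
      (wR : ∀ i m, LW (R i m)) (C1 CR E τ c1 Pm Q1 cE : ℝ) (nr : ℕ),
      0 ≤ c1 → 0 ≤ CR → 0 < τ → τ ≤ 1 → 0 < E → 0 ≤ Pm → 0 ≤ Q1 →
      16 * (16 + 4 * (2 * C2 + 3) + 2 * (1 + 2 * Cg)) ≤ C1 →
      (4 * (2 * C2 + 3) + 2 * (1 + 2 * Cg)) * e0 ≤ E →
      StepIn 𝒮 hd j b UA R wR Cg C1 CR e0 E τ c1 Pm Q1 cE nr →
    ∀ (Λ : ℕ) (z : ℤ), Λ ≤ K → used n K V f b Λ z → tpJ 𝒮 K V f j b e0 C2 Λ z = Λ →
    ∀ i : Fin 4, TR (nvF hd b ∅) (WJ 𝒮 K V f j b e0 C2 Λ z) (rlJ 𝒮 K V f j b i) ≤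
      numW Cb P θ Kb C2 Cg C1 CR e0 E τ c1 Pm Q1 cE nr * cd (gb n b) Λ z := by
  obtain ⟨Ca, hCa, hA⟩ := win_l4
  obtain ⟨Cc, hCc, hB⟩ := box_nvF
  refine ⟨max Ca Cc, le_max_of_le_left hCa, ?_⟩
  intro n P hP hroot ι 𝒮 f o K V 𝒩 hd j b Cg hM hCg C2 e0 hC2 he0 he1 Kb θ hKb hS hθ0 hθ1 κ ι' UA R
    wR C1 CR E τ c1 Pm Q1 cE nr hc1 hCR hτ hτ1 hE hPm hQ1 hC1 hE0 hin Λ z hΛ hu ht i
  obtain ⟨C5, hC50, hC5, hcmp⟩ := hin.cmp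
  obtain ⟨c2, hc2, H2, hPm'⟩ := hin.pay2
  obtain ⟨c3, hc3, H3, hQ1'⟩ := hin.pay3
  have hC20 : 0 ≤ C2 := le_trans (by positivity) hC2
  have hcd := H347.cd_pos (gb n b) Λ z
  set ud := WJ 𝒮 K V f j b e0 C2 Λ z with hud
  have hR : Rgn (gb n b) (used n K V f b) Λ z ud := rgn_J 𝒮 K V f j b e0 C2 hΛ z
  have hz : ud Λ z := wr_top hu ht
  have hPa := paths_step 𝒮 K V f j b
  -- the END values on the window
  have hwin : ∀ k y, ud k y → k ≤ Λ ∧ tp (wJ 𝒮 j b) K (used n K V f b) (VJ 𝒮 K V f j b)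
      (HJ 𝒮 K V f j b) (rJ 𝒮 K V f j b) e0 C2 k y = Λ ∧ used n K V f b Λ y := by
    intro k y h
    exact ⟨h.2.1, h.2.2.2, (hPa.gd_const Λ z y h.2.2.1).2 hu⟩
  have eU : ∀ c, En (gb n b) ud (UJ 𝒮 K V f j b e0 C2 Λ c) (8 * 4) := by
    intro c k y hky
    obtain ⟨h1, h2, h3⟩ := hwin k y hky
    have dsq : dot ((gb n b).cube k y) (UJ 𝒮 K V f j b e0 C2 Λ c) (UJ 𝒮 K V f j b e0 C2 Λ c) =
        ∑ u ∈ (gb n b).cube k y, (UJ 𝒮 K V f j b e0 C2 Λ c u) ^ 2 :=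
      sum_congr rfl fun _ _ => (_root_.sq _).symm
    rw [dsq]
    exact Ue_energy hPa c hΛ h1 h2 h3
  have uU : ∀ c : JP, Un (UA c.2) C5 ud (UJ 𝒮 K V f j b e0 C2 Λ c) := by
    intro c
    refine hcmp c.1 c.2 ud _ hR.sub ?_
    intro k y hky l
    obtain ⟨h1, h2, h3⟩ := hwin k y hky
    exact Ue_unif hPa c (hM c) hΛ h1 h2 h3 l
  have hC1' : (8 * 4 : ℝ) ≤ C1 ∧ 4 * (8 * 4 : ℝ) ≤ C1 := by constructor <;> nlinarith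
  have hWsub : ∀ k y, ud k y → used n K V f b k y := hR.sub
  have key := hA n P hP hroot ι 𝒮 f o K V 𝒩 hd j b ∅ Cg hM hCg C2 e0 hC2 he0 he1 Λ z hΛ hu ht Kb θ
    hKb hS hθ0 hθ1 UA C5 C1 C1 c1 (numL4 C2 Cg C1 CR e0 E τ (Cc * P) Pm Q1 cE nr) hc1 hC5 hC50 hC1
    hcmp hin.pay1 i fun σ hσ q1 q2 q3 => ?_
  · refine key.trans (mul_le_mul_of_nonneg_right ?_ hcd.le)
    unfold numW
    have h1 : numL4 C2 Cg C1 CR e0 E τ (Cc * P) Pm Q1 cE nr ≤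
        numL4 C2 Cg C1 CR e0 E τ (max Ca Cc * P) Pm Q1 cE nr :=
      numL4_mono (mul_le_mul_of_nonneg_right (le_max_right _ _) hP) hCR hτ hE.le
    have h2 : Ca * P ≤ max Ca Cc * P := mul_le_mul_of_nonneg_right (le_max_left _ _) hP
    have h3 : Ca * P * (16 * KS C2 Cg 8 4 θ ^ 4 * (Kb ^ θ) ^ 4) * √e0 ^ 3 ≤
        max Ca Cc * P * (16 * KS C2 Cg 8 4 θ ^ 4 * (Kb ^ θ) ^ 4) * √e0 ^ 3 := by gcongr
    linarith
  · have hσ' : σ.symm 0 = i := by rw [← hσ, Equiv.symm_apply_apply]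
    have hbox : BoxHyp (nvF hd b ∅) ud (Cc * P) :=
      hB n P hP hroot f o K V 𝒩 hd b ∅ ud fun k y h => h.2.1.trans (hΛ.trans hd.hK)
    have h4 := l4_win (nv := nvF hd b ∅) (UA := UA) (R := R) (wR := wR) σ hPa (by norm_num) he0 hΛ
      hM hCg hC20 (fun m => (false, m)) (fun m => (true, m)) rfl
      (G1 := UJ 𝒮 K V f j b e0 C2 Λ (q1.1, σ.symm 1)) (C1 := C1) (CP := Cc * P) (Cg := CR)
      (by nlinarith) (mul_nonneg hCc hP) hbox ?_ ?_ ?_ ?_ hCR hin.mix hτ hτ1 hE hE0 hc2 hc3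
      (fun i hi L' => ?_) (fun i hi => (H3 i hi false).sub hWsub le_rfl)
      (fun i hi => (H3 i hi true).sub hWsub le_rfl) hPm hQ1 hPm' hQ1'
      (fun Kp h1 h2 => endStm_sub (hin.endS Kp h1 h2) hWsub) (rgn_self hR) hz q2 q3
    · rw [hσ'] at h4
      exact h4
    · have h5 := en_mono (en_sub (eU (false, σ.symm 0)) (eU (true, σ.symm 0))) hC1'.2
      exact h5
    · rw [hσ']
      intro k y hky l
      have h1 := uU (false, i) k y hky l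
      have h2 := uU (true, i) k y hky l
      have hW : 0 ≤ (UA i).W k ((gb n b).cube k y) l := (UA i).W_nonneg k _ l
      have h3 : dot ((gb n b).cube k y) (fun y => UJ 𝒮 K V f j b e0 C2 Λ (false, i) y -
          UJ 𝒮 K V f j b e0 C2 Λ (true, i) y) ((UA i).a k l) =
          dot ((gb n b).cube k y) (UJ 𝒮 K V f j b e0 C2 Λ (false, i)) ((UA i).a k l) -
            dot ((gb n b).cube k y) (UJ 𝒮 K V f j b e0 C2 Λ (true, i)) ((UA i).a k l) := by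
        unfold dot
        rw [← sum_sub_distrib]
        exact sum_congr rfl fun u _ => by ring
      rw [show (UA ((false, i) : JP).2) = UA i from rfl] at h1
      rw [show (UA ((true, i) : JP).2) = UA i from rfl] at h2
      refine le_trans (le_of_eq (by rw [← h3])) ((abs_sub _ _).trans ((add_le_add h1 h2).trans ?_))
      rw [← add_mul]
      exact mul_le_mul_of_nonneg_right (by linarith) hW
    · exact en_mono (eU _) hC1'.1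
    · intro k y hky l
      exact (uU (q1.1, σ.symm 1) k y hky l).trans
        (mul_le_mul_of_nonneg_right (by linarith) ((UA (σ.symm 1)).W_nonneg k _ l))
    · exact (H2 i hi L').sub hWsub le_rfl

/-- **`WinHyp` from the inputs of the levels.**  `Cb` is the absolute constant of the black box
(`win_final`); the numbers of the level `j` are functions of `j`. -/
theorem winHyp_of_stepIn {Cb : ℝ} (hwin : ∀ (n : ℕ) (P : ℝ), 0 ≤ P → Root2 n P →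
      ∀ (ι : Type) (𝒮 : LSys n ι) (f : Fin 4 → ℤ → ℝ) (o : ℤ) (K : ℕ) (V : ℤ)
        (𝒩 : Finset (ℕ × ℤ)) (hd : Dat2 n f o K V 𝒩) (j : ℕ) (b : Bool)
        (Cg : ℝ), (∀ c, Mix (SJ 𝒮 j b c) Cg) → 0 ≤ Cg →
      ∀ (C2 e0 : ℝ), 32 * (1 + 2 * Cg) ≤ C2 → 0 < e0 → e0 ≤ 1 →
      ∀ (Kb θ : ℝ), 1 ≤ Kb → (∀ c, L2W (wJ 𝒮 j b c) Kb) → 0 < θ → θ ≤ 1 →
      ∀ {κ ι' : Type} (UA : Fin 4 → CSys (gb n b) κ) (R : ℕ → Fin 4 → CSys (gb n b) ι')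
        (wR : ∀ i m, LW (R i m)) (C1 CR E τ c1 Pm Q1 cE : ℝ) (nr : ℕ),
        0 ≤ c1 → 0 ≤ CR → 0 < τ → τ ≤ 1 → 0 < E → 0 ≤ Pm → 0 ≤ Q1 →
        16 * (16 + 4 * (2 * C2 + 3) + 2 * (1 + 2 * Cg)) ≤ C1 →
        (4 * (2 * C2 + 3) + 2 * (1 + 2 * Cg)) * e0 ≤ E →
        StepIn 𝒮 hd j b UA R wR Cg C1 CR e0 E τ c1 Pm Q1 cE nr →
      ∀ (Λ : ℕ) (z : ℤ), Λ ≤ K → used n K V f b Λ z → tpJ 𝒮 K V f j b e0 C2 Λ z = Λ →
      ∀ i : Fin 4, TR (nvF hd b ∅) (WJ 𝒮 K V f j b e0 C2 Λ z) (rlJ 𝒮 K V f j b i) ≤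
        numW Cb P θ Kb C2 Cg C1 CR e0 E τ c1 Pm Q1 cE nr * cd (gb n b) Λ z)
    {ρ C Cg C1 CR θ : ℝ} {D Kf cg e0 E τ c1 Pm Q1 : ℕ → ℝ} {cE : ℕ → ℝ → ℝ} {nr : ℕ → ℕ}
    (hρ0 : 0 < ρ) (hρ1 : ρ < 1) (hC : 0 ≤ C) (hCg : CgP ≤ Cg) (hcg : ∀ j, 0 ≤ cg j)
    (hCR : 0 ≤ CR) (hθ0 : 0 < θ) (hθ1 : θ ≤ 1) (hKf : ∀ j, Kf j ≤ Kf (j + 1))
    (he0 : ∀ j, 0 < e0 j ∧ e0 j ≤ 1) (hE : ∀ j, 0 < E j) (hτ : ∀ j, 0 < τ j ∧ τ j ≤ 1)
    (hc1 : ∀ j, 0 ≤ c1 j) (hPm : ∀ j, 0 ≤ Pm j) (hQ1 : ∀ j, 0 ≤ Q1 j)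
    (hC1 : 16 * (16 + 4 * (2 * (32 * (1 + 2 * Cg)) + 3) + 2 * (1 + 2 * Cg)) ≤ C1)
    (hE0 : ∀ j, (4 * (2 * (32 * (1 + 2 * Cg)) + 3) + 2 * (1 + 2 * Cg)) * e0 j ≤ E j)
    (hnum : ∀ j, 1 ≤ j → ∀ P : ℝ, 0 ≤ P → numW Cb P θ (2 * Kf (j + 1)) (32 * (1 + 2 * Cg)) Cg C1 CR
      (e0 j) (E j) (τ j) (c1 j) (Pm j) (Q1 j) (cE j P) (nr j) ≤ C * ρ ^ j * e0 j * (1 + P))
    (h : ∀ (n : ℕ) (P : ℝ), 0 ≤ P → Root2 n P → ∃ (κ : Type) (t : TSys n κ),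
      (∀ ε : ℝ, 0 < ε → ∃ J, ∀ j, J ≤ j → t.δ j ≤ ε) ∧ (∀ j, (t.δ j)⁻¹ ≤ D j) ∧
      (∀ j, 1 ≤ t.K j ∧ t.K j ≤ Kf j) ∧ (∀ j b i, (t.P j b i).C ≤ Cg) ∧ (∀ j, GenL t j (cg j)) ∧
      ∀ f o K V 𝒩 (hd : Dat2 n f o K V 𝒩), ∀ j, 1 ≤ j → ∀ b,
        ∃ (κ' ι' : Type) (UA : Fin 4 → CSys (gb n b) κ') (R : ℕ → Fin 4 → CSys (gb n b) ι')
          (wR : ∀ i m, LW (R i m)), StepIn t.sys hd j b UA R wR Cg C1 CR (e0 j) (E j) (τ j)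
            (c1 j) (Pm j) (Q1 j) (cE j P) (nr j)) : WinHyp := by
  refine ⟨ρ, C, Cg, D, Kf, cg, e0, hρ0, hρ1, hC, hCg, hcg, he0, fun n P hP hroot => ?_⟩
  obtain ⟨κ, t, h1, h2, h3, h4, h5, h6⟩ := h n P hP hroot
  refine ⟨κ, t, h1, h2, h3, h4, h5, fun f o K V 𝒩 hd j hj b i Λ hΛ z hu ht => ?_⟩
  obtain ⟨κ', ι', UA, R, wR, hin⟩ := h6 f o K V 𝒩 hd j hj b
  have hCg0 : (0 : ℝ) ≤ Cg := le_trans (by unfold CgP; norm_num) hCg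
  have hK1 : 1 ≤ Kf (j + 1) := (h3 (j + 1)).1.trans (h3 (j + 1)).2
  have hL2 : ∀ c, L2W (wJ t.sys j b c) (2 * Kf (j + 1)) := by
    intro c
    have h7 : t.K (H379.lv j c) ≤ Kf (j + 1) := by
      unfold H379.lv
      split_ifs
      · exact (h3 _).2
      · exact (h3 _).2.trans (hKf j)
    exact l2w_mono (l2w_J t j b c) (by linarith [(h3 (H379.lv j c)).1]) (by linarith)
  have key := hwin n P hP hroot _ t.sys f o K V 𝒩 hd j b Cg (fun c => mix_J t j b hCg h4 c) hCg0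
    (32 * (1 + 2 * Cg)) (e0 j) le_rfl (he0 j).1 (he0 j).2 (2 * Kf (j + 1)) θ (by linarith) hL2
    hθ0 hθ1 UA R wR C1 CR (E j) (τ j) (c1 j) (Pm j) (Q1 j) (cE j P) (nr j) (hc1 j) hCR (hτ j).1
    (hτ j).2 (hE j) (hPm j) (hQ1 j) hC1 (hE0 j) hin Λ z hΛ hu ht i
  exact key.trans (mul_le_mul_of_nonneg_right (hnum j hj P hP) (H347.cd_pos _ _ _).le)

end

end Vale.Agent.P141.H213
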