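import Vale.Agent.P141.H213.WinStep0
import Vale.Agent.P141.H935.Two
import Vale.Agent.P141.PL.H855.PayDefs

/-!
# P141, line W, module S8 (StepB2 on one window), part 4: the terms with two moving slots

The paths are indexed by `Bool × Fin 4` (level, slot).  `win_pay`: `win_step0` where the payments have
the form `PL.H855.PayU` and the terms with two moving slots are bounded by `H935.two_moving_win`.
-/

namespace Vale.Agent.P141.H213

open Finset Function
open Vale.Agent.P141.H315 Vale.Agent.P141.PL.H318 Vale.Agent.P141.H347 Vale.Agent.P141.H297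
open Vale.Agent.P141.H8 (Rgn En Un st T4)
open Vale.Agent.P141.PL.H855
open Vale.Agent.P141.H935 (Dn rgn_dn PayZ two_moving_win)

noncomputable section

open scoped Classical

theorem exists_two (m d : Fin 4) (h : m ≠ d) : ∃ x y : Fin 4, [m, x, y, d].Nodup := by
  revert m d; decide

theorem exists_perm (m n : Fin 4) (h : m ≠ n) : ∃ σ : Equiv.Perm (Fin 4), σ m = 2 ∧ σ n = 3 := by
  refine ⟨(Equiv.swap m 2).trans (Equiv.swap (Equiv.swap m 2 n) 3), ?_, ?_⟩
  · rw [Equiv.trans_apply, Equiv.swap_apply_left]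
    refine Equiv.swap_apply_of_ne_of_ne ?_ (by decide)
    intro h'
    have : Equiv.swap m 2 m = Equiv.swap m 2 n := by rw [Equiv.swap_apply_left]; exact h'
    exact h ((Equiv.swap m 2).injective this)
  · rw [Equiv.trans_apply, Equiv.swap_apply_left]

variable {X α ι κ : Type*} {g : Grid X}

/-- two slots in the order of a permutation -/
theorem upd_two {T : Type*} {σ : Equiv.Perm (Fin 4)} {m n : Fin 4} (h1 : σ m = 2) (h2 : σ n = 3)
    (A : Fin 4 → T) (B D : T) :
    update (update A m B) n D = fun j => ![A (σ.symm 0), A (σ.symm 1), B, D] (σ j) := by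
  have hmn : m ≠ n := by
    intro h
    rw [h, h2] at h1
    exact absurd h1 (by decide)
  have e1 := upd_ord h1 A B
  rw [e1]
  have e2 : n = σ.symm 3 := by rw [← h2, Equiv.symm_apply_apply]
  rw [e2]
  exact ord3 σ _ _ _ _ _

/-- two static slots -/
theorem upd_st (Gs : Fin 4 → X → ℝ) (d : Fin 4) (Z : X → ℝ) :
    update (fun n => st (Gs n)) d (st Z) = fun n => st (update Gs d Z n) := by
  funext n
  by_cases h : n = d
  · subst h; rw [update_self, update_self]
  · rw [update_of_ne h, update_of_ne h]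

variable {S : Bool × Fin 4 → CSys g ι} {w : ∀ j, LW (S j)} {L : ℕ} {e : ℝ}
  {F : Bool × Fin 4 → X → ℝ} {gd : ℕ → X → Prop} {V H : Bool × Fin 4 → ℕ → X → ℝ}
  {rs : Bool × Fin 4 → ℕ → X → Prop} {lm : Bool × Fin 4 → ℕ → X → ℝ} {e0 C2 : ℝ}
  {nv : N4 g α} {Λ : ℕ} {z : X} {ud : ℕ → X → Prop}

/-- a payer of the slot `m` is a path of the slot `m` -/
theorem sl_eq {a : Fin 4} {cb : Fin 4 → Bool} {m : Fin 4} {j : Bool × Fin 4}
    (h : Sl a (fun m => (cb m, m)) (false, a) (true, a) m j) : ∃ β, j = (β, m) := by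
  rcases h with ⟨rfl, rfl | rfl⟩ | ⟨_, rfl⟩
  · exact ⟨_, rfl⟩
  · exact ⟨_, rfl⟩
  · exact ⟨_, rfl⟩

/-- the payments of one window -/
theorem payU_conv {a : Fin 4} {cb : Fin 4 → Bool} {UA : Fin 4 → CSys g κ} {CU EU c : ℝ}
    (hR : Rgn g gd Λ z ud) (hΛ : Λ ≤ L)
    (hpay : ∀ β, PL.H855.PayU nv gd L (fun m => w (β, m)) UA UA CU CU EU EU EU c)
    {Gs : Fin 4 → X → ℝ} (eG : ∀ m, En g ud (Gs m) EU) (uG : ∀ m, Un (UA m) CU ud (Gs m))
    {ez : ℝ} (h0 : 0 ≤ ez) (hez : ez ≤ EU) :
    H213.PayU nv ud w L a (fun m => (cb m, m)) (false, a) (true, a) Gs ez (c * √ez) := by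
  intro m d j hmd hsl Λ' y ud' hR' hu Z hZ l i h1 h2
  obtain ⟨β, rfl⟩ := sl_eq hsl
  obtain ⟨x, y', hn⟩ := exists_two m d hmd
  have hn' := hn
  simp only [List.nodup_cons, List.mem_cons, List.not_mem_nil, not_or, or_false,
    List.nodup_nil, and_true, not_false_eq_true] at hn'
  obtain ⟨⟨hmx, hmy, -⟩, ⟨hxy, hxd⟩, hyd⟩ := hn'
  have hsub : ∀ k u, ud' k u → ud k u := hR'.sub
  have hL' : Λ' ≤ Λ := (hR.bel Λ' y (hsub _ _ hu)).1
  have key := hpay β m x y' d hn Λ' y ud' (hL'.trans hΛ)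
    ⟨hR'.const, hR'.up, hR'.bel, fun k u h => hR.sub k u (hsub k u h)⟩ hu (update Gs d Z)
    (by rw [update_of_ne hxd]; exact fun k u h => eG x k u (hsub k u h))
    (by rw [update_of_ne hxd]; exact fun k u h => uG x k u (hsub k u h))
    (by rw [update_of_ne hyd]; exact fun k u h => eG y' k u (hsub k u h))
    (by rw [update_of_ne hyd]; exact fun k u h => uG y' k u (hsub k u h)) ez h0 hez
    (by rw [update_self]; exact hZ) l h1 h2 i
  rw [upd_st]
  exact key

/-- **two moving slots of one window**, static uniform companions. -/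
theorem two_conv (hP : Paths w L e F gd V H rs lm) {Cg : ℝ} (hM : ∀ j, Mix (S j) Cg)
    (hCg : 0 ≤ Cg) {B0 : ℝ} (hB : ∀ k x, cd g (k + 1) x ≤ B0 * cd g k x)
    (hC2 : 32 * (1 + 2 * Cg) ≤ C2) (he0 : 0 < e0) (hΛ : Λ ≤ L) (hR : Rgn g gd Λ z ud)
    (hz : ud Λ z) (hw : ∀ k y, ud k y → tp w L gd V H rs e0 C2 k y = Λ)
    {UA : Fin 4 → CSys g κ} {CU EU c : ℝ} (hc : 0 ≤ c)
    (hpay : ∀ β, PL.H855.PayU nv gd L (fun m => w (β, m)) UA UA CU CU EU EU EU c)
    {Gs : Fin 4 → X → ℝ} (eG : ∀ m, En g ud (Gs m) EU) (uG : ∀ m, Un (UA m) CU ud (Gs m))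
    (hEU : 8 * (B0 * C2 + 3) * e0 ≤ EU) {m n : Fin 4} (hmn : m ≠ n) (β β' : Bool) :
    TR nv ud (update (update (fun l => st (Gs l)) m (fun k u => V (β, m) Λ u - V (β, m) k u)) n
      (fun k u => V (β', n) Λ u - V (β', n) k u)) ≤
      4 * (c * √(8 * (B0 * C2 + 3)) * ((16 + 150 * B0) * e0) * cd g Λ z) * √e0 := by
  obtain ⟨σ, h1, h2⟩ := exists_perm m n hmn
  have e2 : σ.symm 2 = m := by rw [← h1, Equiv.symm_apply_apply]
  have e3 : σ.symm 3 = n := by rw [← h2, Equiv.symm_apply_apply]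
  have hnd : ∀ p q r s : Fin 4, [p, q, r, s].Nodup →
      [σ.symm p, σ.symm q, σ.symm r, σ.symm s].Nodup := by
    intro p q r s h
    have := h.map σ.symm.injective
    simpa using this
  have card8 : (Fintype.card (Bool × Fin 4) : ℝ) = 8 := by
    rw [Fintype.card_prod, Fintype.card_bool, Fintype.card_fin]; norm_num
  have conv : ∀ (ud' : ℕ → X → Prop) (C D : ℕ → X → ℝ),
      T4 (nv.toNV σ) ud' (st (Gs (σ.symm 0))) (st (Gs (σ.symm 1))) C D =
        TR nv ud' (update (update (fun l => st (Gs l)) m C) n D) := by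
    intro ud' C D
    rw [T4_toNV, upd_two h1 h2]
  have hpz : PayZ (nv.toNV σ) L ud (st (Gs (σ.symm 0))) (st (Gs (σ.symm 1))) (w (β, m)) (w (β', n))
      EU c := by
    constructor
    · intro L' x' ud' hR' hu Z eZ h0 hE hZ j hj1 hj2 i
      have hsub : ∀ k u, ud' k u → ud k u := hR'.sub
      have hL' : L' ≤ Λ := (hR.bel L' x' (hsub _ _ hu)).1
      have hn := hnd 2 0 1 3 (by decide)
      rw [e2, e3] at hn
      have h01 : σ.symm 0 ≠ n := by
        rw [← e3]; exact fun h => absurd (σ.symm.injective h) (by decide)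
      have h11 : σ.symm 1 ≠ n := by
        rw [← e3]; exact fun h => absurd (σ.symm.injective h) (by decide)
      have key := hpay β m (σ.symm 0) (σ.symm 1) n hn L' x' ud' (hL'.trans hΛ)
        ⟨hR'.const, hR'.up, hR'.bel, fun k u h => hR.sub k u (hsub k u h)⟩ hu (update Gs n Z)
        (by rw [update_of_ne h01]; exact fun k u h => eG _ k u (hsub k u h))
        (by rw [update_of_ne h01]; exact fun k u h => uG _ k u (hsub k u h))
        (by rw [update_of_ne h11]; exact fun k u h => eG _ k u (hsub k u h))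
        (by rw [update_of_ne h11]; exact fun k u h => uG _ k u (hsub k u h)) eZ h0 hE
        (by rw [update_self]; exact hZ) j hj1 hj2 i
      rw [conv, update_comm hmn, upd_st]
      exact key
    · intro L' x' ud' hR' hu Z eZ h0 hE hZ j hj1 hj2 i
      have hsub : ∀ k u, ud' k u → ud k u := hR'.sub
      have hL' : L' ≤ Λ := (hR.bel L' x' (hsub _ _ hu)).1
      have hn := hnd 3 0 1 2 (by decide)
      rw [e2, e3] at hn
      have h01 : σ.symm 0 ≠ m := by
        rw [← e2]; exact fun h => absurd (σ.symm.injective h) (by decide)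
      have h11 : σ.symm 1 ≠ m := by
        rw [← e2]; exact fun h => absurd (σ.symm.injective h) (by decide)
      have key := hpay β' n (σ.symm 0) (σ.symm 1) m hn L' x' ud' (hL'.trans hΛ)
        ⟨hR'.const, hR'.up, hR'.bel, fun k u h => hR.sub k u (hsub k u h)⟩ hu (update Gs m Z)
        (by rw [update_of_ne h01]; exact fun k u h => eG _ k u (hsub k u h))
        (by rw [update_of_ne h01]; exact fun k u h => uG _ k u (hsub k u h))
        (by rw [update_of_ne h11]; exact fun k u h => eG _ k u (hsub k u h))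
        (by rw [update_of_ne h11]; exact fun k u h => uG _ k u (hsub k u h)) eZ h0 hE
        (by rw [update_self]; exact hZ) j hj1 hj2 i
      rw [conv, upd_st]
      exact key
  have hU := sub_rgn' hP he0.le hΛ hR hw
  have h3 := two_moving_win hP hM hCg hB (by rw [card8]; linarith) he0 (R := 0) (D := e0)
    le_rfl le_rfl hc hR hz hU hpz hEU hw
  rw [conv, card8] at h3
  refine h3.trans (le_of_eq ?_)
  ring

/-- **One window of the step, all the payments.** -/
theorem win_pay (nv : N4 g α) (hP : Paths w L e F gd V H rs lm) {Cg : ℝ}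
    (hM : ∀ j, Mix (S j) Cg) (hCg : 0 ≤ Cg) {B : ℝ} (hB : ∀ k x, cd g (k + 1) x ≤ B * cd g k x)
    (he0 : 0 < e0) (hee : e0 ≤ e) (hC2 : 32 * (1 + 2 * Cg) ≤ C2) {a : Fin 4} {cb : Fin 4 → Bool}
    (hF : F (false, a) = F (true, a)) (hΛ : Λ ≤ L) (hR : Rgn g gd Λ z ud) (hz : ud Λ z)
    (hw : ∀ k y, ud k y → tp w L gd V H rs e0 C2 k y = Λ)
    {UA : Fin 4 → CSys g κ} {C5 CU EU c l3 l4 : ℝ} (hc : 0 ≤ c)
    (hU5 : ∀ β m F', Un (S (β, m)) Cg ud F' → Un (UA m) C5 ud F') (hC5 : 2 * C5 ≤ CU)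
    (hC50 : 0 ≤ C5)
    (hEU : 4 * ((16 + 4 * (B * C2 + 3) + 2 * (1 + 2 * Cg)) * e) ≤ EU)
    (hpay : ∀ β, PL.H855.PayU nv gd L (fun m => w (β, m)) UA UA CU CU EU EU EU c)
    (h30 : ∀ b c, b ≠ a → c ≠ a → b ≠ c → TR nv ud (update (update (update
      (rol a (fun m => (cb m, m)) (false, a) (true, a) fun j => st (Ue w L gd V H rs e0 C2 j Λ))
      a (rol a (fun m => (cb m, m)) (false, a) (true, a)
        (fun j k => V j k - Ue w L gd V H rs e0 C2 j Λ) a))
      b (rol a (fun m => (cb m, m)) (false, a) (true, a)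
        (fun j k => V j k - Ue w L gd V H rs e0 C2 j Λ) b))
      c (rol a (fun m => (cb m, m)) (false, a) (true, a)
        (fun j k => V j k - Ue w L gd V H rs e0 C2 j Λ) c)) ≤ l3 * cd g Λ z)
    (h31 : TR nv ud (update (rol a (fun m => (cb m, m)) (false, a) (true, a)
      fun j k => V j k - Ue w L gd V H rs e0 C2 j Λ) a
      (rol a (fun m => (cb m, m)) (false, a) (true, a) V a)) ≤ l3 * cd g Λ z)
    (h4 : ∀ b c, b ≠ a → c ≠ a → b ≠ c → TR nv ud (update (update
      (rol a (fun m => (cb m, m)) (false, a) (true, a) fun j => st (Ue w L gd V H rs e0 C2 j Λ))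
      b (st (V (cb b, b) Λ - Ue w L gd V H rs e0 C2 (cb b, b) Λ)))
      c (st (V (cb c, c) Λ - Ue w L gd V H rs e0 C2 (cb c, c) Λ))) ≤ l4 * cd g Λ z) :
    TR nv ud (rol a (fun m => (cb m, m)) (false, a) (true, a) V) ≤
      (154 * e * (c * √EU) +
        48 * (c * √(8 * (B * C2 + 3)) * ((16 + 150 * B) * e0) * √e0) +
        4 * l3 + 3 * l4) * cd g Λ z := by
  have hC20 : 0 ≤ C2 := le_trans (by positivity) hC2
  have hg : gd Λ z := hR.sub Λ z hz
  have he : 0 < e := he0.trans_le hee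
  have hcd := H347.cd_pos g Λ z
  have hB0 : 0 ≤ B := by
    have h1 := hB Λ z
    have h3 := H347.cd_pos g (Λ + 1) z
    by_contra hn
    push Not at hn
    nlinarith
  have hBC : 0 ≤ B * C2 := mul_nonneg hB0 hC20
  set U : Bool × Fin 4 → X → ℝ := fun j => Ue w L gd V H rs e0 C2 j Λ with hU
  set Gs : Fin 4 → X → ℝ := rol a (fun m => (cb m, m)) (false, a) (true, a) U with hGs
  set K : ℝ := 16 + 4 * (B * C2 + 3) + 2 * (1 + 2 * Cg) with hK
  have hK0 : 0 ≤ K * e := by rw [hK]; positivity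
  have hEU0 : 0 ≤ EU := le_trans (by linarith) hEU
  have hwin : ∀ k y, ud k y → k ≤ Λ ∧ tp w L gd V H rs e0 C2 k y = Λ ∧ gd Λ y ∧ gd k y := by
    intro k y h
    obtain ⟨h1, h3⟩ := hR.bel k y h
    exact ⟨h1, hw k y h, (hP.gd_const Λ z y h3).2 hg, hR.sub k y h⟩
  have eU : ∀ j, En g ud (U j) (K * e) := by
    intro j k y hky
    obtain ⟨h1, h2, h3, _⟩ := hwin k y hky
    have dsq : dot (g.cube k y) (U j) (U j) = ∑ u ∈ g.cube k y, U j u ^ 2 :=
      sum_congr rfl fun _ _ => (sq _).symm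
    rw [dsq]
    refine (Ue_energy hP j hΛ h1 h2 h3).trans
      (mul_le_mul_of_nonneg_right ?_ (H347.cd_pos g k y).le)
    rw [hK]; nlinarith
  have uU : ∀ j, Un (S j) Cg ud (U j) := by
    intro j k y hky i
    obtain ⟨h1, h2, h3, _⟩ := hwin k y hky
    exact Ue_unif hP j (hM j) hΛ h1 h2 h3 i
  have eG : ∀ m, En g ud (Gs m) EU := by
    intro m
    by_cases hm : m = a
    · subst hm
      rw [hGs, rol_self]
      exact en_mono (en_sub (eU _) (eU _)) hEU
    · rw [hGs, rol_of_ne hm]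
      exact en_mono (eU _) (by linarith)
  have uG : ∀ m, Un (UA m) CU ud (Gs m) := by
    intro m k y hky i
    have hW : 0 ≤ (UA m).W k (g.cube k y) i := (UA m).W_nonneg k _ i
    by_cases hm : m = a
    · subst hm
      rw [hGs, rol_self]
      have h1 := hU5 false m (U (false, m)) (uU _) k y hky i
      have h2 := hU5 true m (U (true, m)) (uU _) k y hky i
      have h3 : dot (g.cube k y) (U (false, m) - U (true, m)) ((UA m).a k i) =
          dot (g.cube k y) (U (false, m)) ((UA m).a k i) -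
            dot (g.cube k y) (U (true, m)) ((UA m).a k i) := by
        unfold dot
        rw [← sum_sub_distrib]
        exact sum_congr rfl fun u _ => by simp only [Pi.sub_apply]; ring
      rw [h3]
      refine (abs_sub _ _).trans ((add_le_add h1 h2).trans ?_)
      rw [← add_mul]
      exact mul_le_mul_of_nonneg_right (by linarith) hW
    · rw [hGs, rol_of_ne hm]
      exact (hU5 _ _ _ (uU _) k y hky i).trans (mul_le_mul_of_nonneg_right (by linarith) hW)
  have hGst : (rol a (fun m => (cb m, m)) (false, a) (true, a) fun j => st (U j)) =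
      fun n => st (Gs n) := by
    funext n
    by_cases hn : n = a
    · subst hn; rw [hGs, rol_self, rol_self]; rfl
    · rw [hGs, rol_of_ne hn, rol_of_ne hn]
  have hp0 : 0 ≤ c * √EU := mul_nonneg hc (Real.sqrt_nonneg _)
  have key := win_step0 nv hP hM hCg hB he0 hee hC20 hF hΛ hR hz hw (ez := EU) (p := c * √EU)
    (l2 := 4 * (c * √(8 * (B * C2 + 3)) * ((16 + 150 * B) * e0) * √e0))
    (l3 := l3) (l4 := l4) hp0 hEU (payU_conv hR hΛ hpay eG uG hEU0 le_rfl) ?_ h30 h31 h4
  · refine key.trans (mul_le_mul_of_nonneg_right ?_ hcd.le)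
    have h1 : c * √EU * e0 ≤ c * √EU * e := mul_le_mul_of_nonneg_left hee hp0
    linarith
  · intro m n j j' hmn hj hj'
    obtain ⟨β, rfl⟩ := sl_eq hj
    obtain ⟨β', rfl⟩ := sl_eq hj'
    have h1 := two_conv (nv := nv) hP hM hCg hB hC2 he0 hΛ hR hz hw hc hpay eG uG
      (by
        have h5 : 8 * (B * C2 + 3) * e0 ≤ 8 * (B * C2 + 3) * e :=
          mul_le_mul_of_nonneg_left hee (by positivity)
        have h6 : 8 * (B * C2 + 3) * e ≤ 4 * (K * e) := by
          rw [hK]; nlinarith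
        linarith) hmn β β'
    rw [hGst]
    refine h1.trans (le_of_eq ?_)
    ring

end

end Vale.Agent.P141.H213
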