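import Vale.Agent.P141.H213.WinExp
import Vale.Agent.P141.H935.Frz2
import Vale.Agent.P141.PL.H855.TrAl

/-!
# P141, line W, module S8 (StepB2 on one window), part 2: the static payments

`rol a cj jo jn φ`: the slots of the step: the difference of the paths `jo` (old level) and `jn`
(new level) in the role slot `a`, the path `cj m` in the slot `m`.
`PayU`: the static payments; two companions are END values of the window, the third one is any
static function with local energy at most `ez`.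
`win_step0`: the bound of one window of the joint labels.
-/

namespace Vale.Agent.P141.H213

open Finset Function
open Vale.Agent.P141.H315 Vale.Agent.P141.PL.H318 Vale.Agent.P141.H347 Vale.Agent.P141.H297
open Vale.Agent.P141.H8 (Rgn En st T4)
open Vale.Agent.P141.PL.H855
open Vale.Agent.P141.H935 (Dn rgn_dn win_births3 Cs_lden_le)

noncomputable section

open scoped Classical

section role

variable {J M : Type*}

/-- the slots of the step -/
def rol [Sub M] (a : Fin 4) (cj : Fin 4 → J) (jo jn : J) (φ : J → M) : Fin 4 → M :=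
  update (fun m => φ (cj m)) a (φ jo - φ jn)

/-- the path `j` is read in the slot `m` -/
def Sl (a : Fin 4) (cj : Fin 4 → J) (jo jn : J) (m : Fin 4) (j : J) : Prop :=
  (m = a ∧ (j = jo ∨ j = jn)) ∨ (m ≠ a ∧ j = cj m)

variable {a : Fin 4} {cj : Fin 4 → J} {jo jn : J}

theorem rol_self [Sub M] (φ : J → M) : rol a cj jo jn φ a = φ jo - φ jn := update_self _ _ _

theorem rol_of_ne [Sub M] {m : Fin 4} (h : m ≠ a) (φ : J → M) : rol a cj jo jn φ m = φ (cj m) :=
  update_of_ne h _ _

theorem sl_o : Sl a cj jo jn a jo := Or.inl ⟨rfl, Or.inl rfl⟩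

theorem sl_n : Sl a cj jo jn a jn := Or.inl ⟨rfl, Or.inr rfl⟩

theorem sl_c {m : Fin 4} (h : m ≠ a) : Sl a cj jo jn m (cj m) := Or.inr ⟨h, rfl⟩

end role

variable {X ι α : Type*} {g : Grid X}

theorem en_anti {ud ud' : ℕ → X → Prop} {F : X → ℝ} {c : ℝ} (h : En g ud F c)
    (hs : ∀ k y, ud' k y → ud k y) : En g ud' F c := fun k y hy => h k y (hs k y hy)

theorem en_mono {ud : ℕ → X → Prop} {F : X → ℝ} {c c' : ℝ} (h : En g ud F c) (hc : c ≤ c') :
    En g ud F c' := fun k y hy =>
  (h k y hy).trans (mul_le_mul_of_nonneg_right hc (H347.cd_pos g k y).le)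

theorem en_sub {ud : ℕ → X → Prop} {F G : X → ℝ} {c : ℝ} (hF : En g ud F c) (hG : En g ud G c) :
    En g ud (F - G) (4 * c) := by
  intro k y hy
  have h1 := hF k y hy
  have h2 := hG k y hy
  have h3 : dot (g.cube k y) (F - G) (F - G) ≤
      2 * dot (g.cube k y) F F + 2 * dot (g.cube k y) G G := by
    unfold dot
    rw [mul_sum, mul_sum, ← sum_add_distrib]
    refine sum_le_sum fun u _ => ?_
    simp only [Pi.sub_apply]
    nlinarith [sq_nonneg (F u + G u)]
  linarith

theorem rgn_self {gd ud : ℕ → X → Prop} {L : ℕ} {x : X} (h : Rgn g gd L x ud) :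
    Rgn g ud L x ud := ⟨h.const, h.up, h.bel, fun _ _ h => h⟩

variable {J : Type*} [Fintype J] {S : J → CSys g ι}
  {w : ∀ j, LW (S j)} {L : ℕ} {e : ℝ} {F : J → X → ℝ} {gd : ℕ → X → Prop}
  {V H : J → ℕ → X → ℝ} {rs : J → ℕ → X → Prop} {lm : J → ℕ → X → ℝ} {e0 C2 : ℝ}
  {nv : N4 g α} {Λ : ℕ} {z : X} {ud : ℕ → X → Prop}

/-- **The static payments on one window**: the payer is an atom of the path `j` in the slot `m`, two
companions are the END values `Gs`, the third one is any static function `Z`. -/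
def PayU (nv : N4 g α) (ud : ℕ → X → Prop) (w : ∀ j, LW (S j)) (L : ℕ) (a : Fin 4)
    (cj : Fin 4 → J) (jo jn : J) (Gs : Fin 4 → X → ℝ) (ez p : ℝ) : Prop :=
  ∀ (m d : Fin 4) (j : J), m ≠ d → Sl a cj jo jn m j → ∀ Λ' y ud', Rgn g ud Λ' y ud' → ud' Λ' y →
    ∀ Z, En g ud' Z ez → ∀ l i, Λ' ≤ l → l ≤ L →
      TR nv ud' (update (update (fun n => st (Gs n)) d (st Z)) m (st ((S j).a l i))) ≤
        p * (w j).ω l Λ' y i * cd g Λ' y

/-- a region of one window has small drop -/
theorem sub_rgn' (hP : Paths w L e F gd V H rs lm) (he0 : 0 ≤ e0) (hΛ : Λ ≤ L)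
    (hR : Rgn g gd Λ z ud) (hw : ∀ k y, ud k y → tp w L gd V H rs e0 C2 k y = Λ) :
    Sub S L gd H rs Λ ud 0 e0 := by
  have h := sub_window hP he0 hΛ (C0 := C2) (pd := ud)
    (fun k x y hy => hR.const k x y hy) hR.up
  have e1 : (fun k y => k ≤ Λ ∧ ud k y ∧ gd k y ∧ tp w L gd V H rs e0 C2 k y = Λ) = ud := by
    funext k y
    exact propext ⟨fun h => h.2.1, fun h => ⟨(hR.bel k y h).1, h, hR.sub k y h, hw k y h⟩⟩
  rwa [e1] at h

/-- **The births inside a region of one window pay**, any slot, any companions. -/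
theorem TR_births (hP : Paths w L e F gd V H rs lm) (he0 : 0 ≤ e0) (hΛ : Λ ≤ L)
    (hR : Rgn g gd Λ z ud) (hz : ud Λ z) (hw : ∀ k y, ud k y → tp w L gd V H rs e0 C2 k y = Λ)
    (j : J) (m : Fin 4) (A : Fin 4 → ℕ → X → ℝ) {p : ℝ} (hp : 0 ≤ p)
    (hpay : ∀ l < Λ, ∀ y ∈ g.cube Λ z, ud l y → ∀ i,
      TR nv (Dn g ud l y) (update A m (st ((S j).a l i))) ≤ p * (w j).ω l l y i * cd g l y) :
    TR nv ud (update A m (fun k u => V j Λ u - V j k u)) ≤ p * e0 * cd g Λ z := by
  rw [TR_upd (swap_two m)]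
  refine (win_births3 (nv.toNV (Equiv.swap m 2)) hP hΛ hR hw j
    (p := p) (fun l hl y hy hu i _ => ?_)).trans ?_
  · rw [← TR_upd (swap_two m)]
    exact hpay l hl y hy hu i
  · rw [mul_assoc]
    exact mul_le_mul_of_nonneg_left (Cs_lden_le (sub_rgn' hP he0 hΛ hR hw) hz j) hp

/-- **One window of the step, the static payments.** -/
theorem win_step0 (nv : N4 g α) (hP : Paths w L e F gd V H rs lm) {Cg : ℝ}
    (hM : ∀ j, Mix (S j) Cg) (hC : 0 ≤ Cg) {B : ℝ} (hB : ∀ k x, cd g (k + 1) x ≤ B * cd g k x)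
    (he0 : 0 < e0) (hee : e0 ≤ e) (hC2 : 0 ≤ C2) {a : Fin 4} {cj : Fin 4 → J} {jo jn : J}
    (hF : F jo = F jn) (hΛ : Λ ≤ L) (hR : Rgn g gd Λ z ud) (hz : ud Λ z)
    (hw : ∀ k y, ud k y → tp w L gd V H rs e0 C2 k y = Λ) {ez p l2 l3 l4 : ℝ} (hp : 0 ≤ p)
    (hez : 4 * ((16 + 4 * (B * C2 + 3) + 2 * (1 + 2 * Cg)) * e) ≤ ez)
    (hpay : PayU nv ud w L a cj jo jn
      (rol a cj jo jn fun j => Ue w L gd V H rs e0 C2 j Λ) ez p)
    (h2 : ∀ m n j j', m ≠ n → Sl a cj jo jn m j → Sl a cj jo jn n j' →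
      TR nv ud (update (update (rol a cj jo jn fun j => st (Ue w L gd V H rs e0 C2 j Λ)) m
        (fun k u => V j Λ u - V j k u)) n (fun k u => V j' Λ u - V j' k u)) ≤ l2 * cd g Λ z)
    (h30 : ∀ b c, b ≠ a → c ≠ a → b ≠ c → TR nv ud (update (update (update
      (rol a cj jo jn fun j => st (Ue w L gd V H rs e0 C2 j Λ))
      a (rol a cj jo jn (fun j k => V j k - Ue w L gd V H rs e0 C2 j Λ) a))
      b (rol a cj jo jn (fun j k => V j k - Ue w L gd V H rs e0 C2 j Λ) b))
      c (rol a cj jo jn (fun j k => V j k - Ue w L gd V H rs e0 C2 j Λ) c)) ≤ l3 * cd g Λ z)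
    (h31 : TR nv ud (update (rol a cj jo jn fun j k => V j k - Ue w L gd V H rs e0 C2 j Λ) a
      (rol a cj jo jn V a)) ≤ l3 * cd g Λ z)
    (h4 : ∀ b c, b ≠ a → c ≠ a → b ≠ c → TR nv ud (update (update
      (rol a cj jo jn fun j => st (Ue w L gd V H rs e0 C2 j Λ))
      b (st (V (cj b) Λ - Ue w L gd V H rs e0 C2 (cj b) Λ)))
      c (st (V (cj c) Λ - Ue w L gd V H rs e0 C2 (cj c) Λ))) ≤ l4 * cd g Λ z) :
    TR nv ud (rol a cj jo jn V) ≤
      (128 * e * p + 26 * (p * e0) + 12 * l2 + 4 * l3 + 3 * l4) * cd g Λ z := by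
  set U : J → X → ℝ := fun j => Ue w L gd V H rs e0 C2 j Λ with hU
  set G : Fin 4 → ℕ → X → ℝ := rol a cj jo jn fun j => st (U j) with hG
  set Xs : J → X → ℝ := fun j => V j Λ - U j with hXs
  set X' : Fin 4 → ℕ → X → ℝ := rol a cj jo jn fun j => st (Xs j) with hX'
  set sb : J → ℕ → X → ℝ := fun j k u => V j Λ u - V j k u with hsb
  set s : Fin 4 → ℕ → X → ℝ := rol a cj jo jn sb with hs
  have hcd := H347.cd_pos g Λ z
  have hg : gd Λ z := hR.sub Λ z hz
  have hB0 : 0 ≤ B := by
    have h1 := hB Λ z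
    have h3 := H347.cd_pos g (Λ + 1) z
    by_contra hn
    push Not at hn
    nlinarith
  have he : 0 < e := he0.trans_le hee
  -- energies
  set K : ℝ := 16 + 4 * (B * C2 + 3) + 2 * (1 + 2 * Cg) with hK
  have hBC : 0 ≤ B * C2 := mul_nonneg hB0 hC2
  have hwin : ∀ k y, ud k y → k ≤ Λ ∧ tp w L gd V H rs e0 C2 k y = Λ ∧ gd Λ y ∧ gd k y := by
    intro k y h
    obtain ⟨h1, h3⟩ := hR.bel k y h
    exact ⟨h1, hw k y h, (hP.gd_const Λ z y h3).2 hg, hR.sub k y h⟩
  have dsq : ∀ (Q : Finset X) (A : X → ℝ), dot Q A A = ∑ y ∈ Q, A y ^ 2 := fun Q A =>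
    sum_congr rfl fun _ _ => (sq _).symm
  have eU : ∀ j, En g ud (U j) (K * e) := by
    intro j k y hky
    obtain ⟨h1, h2, h3, _⟩ := hwin k y hky
    rw [dsq]
    refine (Ue_energy hP j hΛ h1 h2 h3).trans
      (mul_le_mul_of_nonneg_right ?_ (H347.cd_pos g k y).le)
    rw [hK]; nlinarith
  have eX : ∀ j, En g ud (Xs j) (K * e) := by
    intro j k y hky
    obtain ⟨h1, h2, h3, _⟩ := hwin k y hky
    rw [dsq]
    refine (X_dist hP j (hM j) hC hB he0.le hC2 hΛ h1 h2 h3).trans ?_
    rw [← mul_assoc]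
    refine mul_le_mul_of_nonneg_right ?_ (H347.cd_pos g k y).le
    rw [hK]; nlinarith
  have eV : ∀ j, En g ud (V j Λ) (K * e) := by
    intro j k y hky
    obtain ⟨h1, h2, h3, h0⟩ := hwin k y hky
    have h4 := top_dist hP j hB he0.le hC2 hΛ h1 h2
    have h5 := (hP.path j).enV k (h1.trans hΛ) y h0
    rw [dsq] at h5 ⊢
    have h6 : ∑ t ∈ g.cube k y, V j Λ t ^ 2 ≤
        ∑ t ∈ g.cube k y, (2 * (V j Λ t - V j k t) ^ 2 + 2 * V j k t ^ 2) :=
      sum_le_sum fun t _ => by nlinarith [sq_nonneg (V j Λ t - 2 * V j k t)]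
    rw [sum_add_distrib, ← mul_sum, ← mul_sum] at h6
    have h7 := H347.cd_pos g k y
    have h8 : 2 * (2 * (B * C2 + 3) * (e0 * cd g k y)) + 2 * (8 * e * cd g k y) ≤
        K * e * cd g k y := by
      have : 2 * (2 * (B * C2 + 3) * (e0 * cd g k y)) + 2 * (8 * e * cd g k y) =
        (4 * (B * C2 + 3) * e0 + 16 * e) * cd g k y := by ring
      rw [this]
      refine mul_le_mul_of_nonneg_right ?_ h7.le
      rw [hK]; nlinarith
    linarith
  have hKe : K * e ≤ ez := by
    have : 0 ≤ K * e := by rw [hK]; positivity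
    linarith
  -- the static functions of the slots
  have eG : ∀ m, En g ud (rol a cj jo jn U m) ez := by
    intro m
    by_cases hm : m = a
    · subst hm
      rw [rol_self]
      exact en_mono (en_sub (eU jo) (eU jn)) hez
    · rw [rol_of_ne hm]
      exact en_mono (eU _) hKe
  have hGst : G = fun n => st (rol a cj jo jn U n) := by
    funext n
    by_cases hn : n = a
    · subst hn; rw [hG, rol_self, rol_self]; rfl
    · rw [hG, rol_of_ne hn, rol_of_ne hn]
  have hTa : G a + X' a = st (V jo Λ - V jn Λ) := by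
    rw [hG, hX', rol_self, rol_self]
    funext k u
    simp only [Pi.add_apply, Pi.sub_apply, st, hXs]
    ring
  have eT : En g ud (V jo Λ - V jn Λ) ez := en_mono (en_sub (eV jo) (eV jn)) hez
  -- payments, one static companion `Z` in the slot `d`
  have alv : ∀ (j : J) (d : Fin 4), a ≠ d → Sl a cj jo jn a j → ∀ Z, En g ud Z ez →
      TR nv ud (update (update G d (st Z)) a (st fun y => F j y - V j Λ y)) ≤
        p * (16 * e) * cd g Λ z := by
    intro j d had hsl Z hZ
    refine (TR_alive (hP.path j) hP.gd_const hP.gd_up hR hΛ hg (update G d (st Z)) a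
      (p := p) fun l i h1 h3 => ?_).trans ?_
    · rw [hGst]
      exact hpay a d j had hsl Λ z ud (rgn_self hR) hz Z hZ l i h1 h3
    · exact mul_le_mul_of_nonneg_right
        (mul_le_mul_of_nonneg_left ((hP.path j).mass Λ hΛ z hg) hp) hcd.le
  have bir : ∀ (m : Fin 4) (j : J) (d : Fin 4), m ≠ d → Sl a cj jo jn m j → ∀ Z, En g ud Z ez →
      TR nv ud (update (update G d (st Z)) m (sb j)) ≤ p * e0 * cd g Λ z := by
    intro m j d hmd hsl Z hZ
    refine TR_births hP he0.le hΛ hR hz hw j m (update G d (st Z)) hp fun l hl y _ hu i => ?_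
    rw [hGst]
    exact hpay m d j hmd hsl l y (Dn g ud l y)
      (rgn_dn (rgn_self hR) hl.le y) ⟨hu, le_rfl, g.mem _ _⟩ Z
      (en_anti hZ fun k y h => h.1) l i le_rfl (hl.le.trans hΛ)
  have Gupd : ∀ d, update G d (st (rol a cj jo jn U d)) = G := by
    intro d
    have : st (rol a cj jo jn U d) = G d := by rw [hGst]
    rw [this, update_eq_self]
  -- the role slot: alive births
  have hal : ∀ d, a ≠ d → ∀ Z, En g ud Z ez →
      TR nv ud (update (update G d (st Z)) a (G a + X' a)) ≤ 32 * e * p * cd g Λ z := by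
    intro d had Z hZ
    have e1 : G a + X' a = (st fun y => F jn y - V jn Λ y) - st fun y => F jo y - V jo Λ y := by
      rw [hTa, hF]
      funext k u
      simp only [Pi.sub_apply, st]
      ring
    rw [e1]
    refine (TR_sub _ a _ _).trans ?_
    have h1 := alv jn d had sl_n Z hZ
    have h3 := alv jo d had sl_o Z hZ
    linarith
  have hbi : ∀ d, a ≠ d → ∀ Z, En g ud Z ez →
      TR nv ud (update (update G d (st Z)) a (s a)) ≤ 2 * (p * e0) * cd g Λ z := by
    intro d had Z hZ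
    rw [hs, rol_self]
    refine (TR_sub _ a _ _).trans ?_
    have h1 := bir a jo d had sl_o Z hZ
    have h3 := bir a jn d had sl_n Z hZ
    linarith
  have sX : ∀ m, m ≠ a → X' m = st (Xs (cj m)) := fun m hm => by rw [hX', rol_of_ne hm]
  have ss : ∀ m, m ≠ a → s m = sb (cj m) := fun m hm => by rw [hs, rol_of_ne hm]
  have eXm : ∀ m, En g ud (Xs m) ez := fun m => en_mono (eX m) hKe
  have hsV : (fun m => G m + X' m - s m) = rol a cj jo jn V := by
    funext m
    by_cases hm : m = a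
    · subst hm
      rw [hG, hX', hs, rol_self, rol_self, rol_self, rol_self]
      funext k u
      simp only [Pi.add_apply, Pi.sub_apply, st, hXs, hsb]
      ring
    · rw [hG, hX', hs, rol_of_ne hm, rol_of_ne hm, rol_of_ne hm, rol_of_ne hm]
      funext k u
      simp only [Pi.add_apply, Pi.sub_apply, st, hXs, hsb]
      ring
  have hth : ∀ m, X' m - s m = rol a cj jo jn (fun j k => V j k - U j) m := by
    intro m
    by_cases hm : m = a
    · subst hm
      rw [hX', hs, rol_self, rol_self, rol_self]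
      funext k u
      simp only [Pi.sub_apply, st, hXs, hsb]
      ring
    · rw [hX', hs, rol_of_ne hm, rol_of_ne hm, rol_of_ne hm]
      funext k u
      simp only [Pi.sub_apply, st, hXs, hsb]
      ring
  obtain ⟨b0, c0, -, hb0, hc0, -, hbc0, -⟩ := exists_others a
  have hl2 : 0 ≤ l2 * cd g Λ z :=
    (TR_nonneg _).trans (h2 b0 c0 (cj b0) (cj c0) hbc0 (sl_c hb0) (sl_c hc0))
  have c1 : 0 ≤ p * e0 * cd g Λ z := mul_nonneg (mul_nonneg hp he0.le) hcd.le
  have key := win_exp (nv := nv) (ud := ud) a G X' s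
    (l0 := 32 * e * p * cd g Λ z) (l1 := 2 * (p * e0) * cd g Λ z)
    (l2 := 2 * (l2 * cd g Λ z)) (l3 := l3 * cd g Λ z) (l4 := l4 * cd g Λ z)
    (by
      have h := hal b0 hb0.symm _ (eG b0)
      rwa [Gupd] at h)
    (fun b hb => by
      rw [update_comm hb.symm, sX b hb]
      exact hal b hb.symm _ (eXm _))
    (by
      have h := hbi b0 hb0.symm _ (eG b0)
      rwa [Gupd] at h)
    (fun b hb => by
      rw [hTa, ss b hb]
      have := bir b (cj b) a hb (sl_c hb) _ eT
      linarith)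
    (fun b hb => by
      rw [update_comm hb.symm, sX b hb]
      exact hbi b hb.symm _ (eXm _))
    (fun b c hb hc hbc => by
      rw [update_comm hbc, sX c hc, ss b hb]
      have := bir b (cj b) c hbc (sl_c hb) _ (eXm (cj c))
      linarith)
    (fun b hb => by
      rw [update_comm hb.symm, hs, rol_self]
      refine (TR_sub _ a _ _).trans ?_
      have q1 := h2 b a (cj b) jo hb (sl_c hb) sl_o
      have q2 := h2 b a (cj b) jn hb (sl_c hb) sl_n
      rw [← hs, ss b hb]
      linarith)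
    (fun b c hb hc hbc => by
      rw [ss b hb, ss c hc]
      have := h2 b c (cj b) (cj c) hbc (sl_c hb) (sl_c hc)
      linarith)
    (fun b c hb hc hbc => by
      rw [hth, hth, hth]
      exact h30 b c hb hc hbc)
    (by
      have e1 : (fun m => X' m - s m) = rol a cj jo jn fun j k => V j k - U j := funext hth
      have e2 : G a + X' a - s a = rol a cj jo jn V a := congrFun hsV a
      rw [e1, e2]
      exact h31)
    (fun b c hb hc hbc => by
      rw [sX b hb, sX c hc]
      exact h4 b c hb hc hbc)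
  rw [hsV] at key
  linarith

end

end Vale.Agent.P141.H213
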